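import Vale.Agent.P011.D4W.H684.Lim2
import Vale.Agent.P011.D4W.H183.Cls
import Vale.Agent.P011.D4W.H183.NrdNear

/-!
Block D4W (helper684): the classes of the multipliers of the two elements.
-/

open NumberField IsDedekindDomain Topology Filter

set_option linter.unusedSectionVars false

namespace Vale.Agent.P011.D4W

open Vale.Agent.P011.Arith Vale.Agent.P011.MPQ Vale.Agent.P011.D4 Vale.Agent.P011.D4.Oct
  Vale.Agent.P011.E6
open Vale.Agent.P011.D4X Vale.Agent.P011.D4X.H691 Vale.Agent.P011.D4Y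

section up

variable {k L : Type} [Field k] [NumberField k] [Field L] [NumberField L] [Algebra k L]

/-- The inclusion is continuous at a prime over another. -/
theorem cont_val {w : HeightOneSpectrum (𝓞 L)} {v : HeightOneSpectrum (𝓞 k)}
    (hw : w.asIdeal.comap (algebraMap (𝓞 k) (𝓞 L)) = v.asIdeal) {ε : ℝ} (hε : 0 < ε) :
    ∃ δ : ℝ, 0 < δ ∧ ∀ z : k, paAbv (Sum.inl v) z < δ →
      paAbv (Sum.inl w) (algebraMap k L z) < ε := by
  obtain ⟨η, hη0, hη⟩ := exists_small_elt (Sum.inl v : Pl k) one_pos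
  have h1 : plAbv (Sum.inl w : Pl L) (algebraMap k L η) < 1 := by
    rw [plAbv_lt_one, val_lt_one_iff hw, ← plAbv_lt_one]
    exact hη
  obtain ⟨ζ, hζ0, hζ⟩ := exists_small_elt (Sum.inl w : Pl L) hε
  obtain ⟨n, hn⟩ := exists_pow_lt_of_lt_one ((plAbv (Sum.inl w : Pl L)).pos hζ0) h1
  refine ⟨plAbv (Sum.inl v : Pl k) (η ^ n),
    (plAbv (Sum.inl v : Pl k)).pos (pow_ne_zero n hη0), fun z hz => ?_⟩
  change plAbv (Sum.inl v : Pl k) z < _ at hz
  change plAbv (Sum.inl w : Pl L) _ < _
  rw [plAbv_lt, ← val_lt_val_iff hw, ← plAbv_lt, map_pow, map_pow] at hz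
  exact (hz.trans hn).trans hζ

/-- The limits over `k` give limits over `L`. -/
theorem AE_up {w : HeightOneSpectrum (𝓞 L)} {v : HeightOneSpectrum (𝓞 k)}
    (hw : w.asIdeal.comap (algebraMap (𝓞 k) (𝓞 L)) = v.asIdeal) {X : Type} {F : Filter X}
    {f : X → k} {x : k} (h : AE {paAbv (Sum.inl v)} F f x) :
    AE {paAbv (Sum.inl w)} F (fun n => algebraMap k L (f n)) (algebraMap k L x) := by
  rintro p rfl
  rw [Metric.tendsto_nhds]
  intro ε hε
  obtain ⟨δ, hδ, h1⟩ := cont_val hw hε
  filter_upwards [h.eventually_lt rfl hδ] with n hn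
  rw [Real.dist_eq, sub_zero, abs_of_nonneg ((paAbv _).nonneg _), ← map_sub]
  exact h1 _ hn

/-- The limits over `k` give limits over `L`, at the infinite places. -/
theorem AE_up_inf (u : InfinitePlace L) {X : Type} {F : Filter X}
    {f : X → k} {x : k} (h : AE {paAbv (Sum.inr (u.comap (algebraMap k L)))} F f x) :
    AE {paAbv (Sum.inr u)} F (fun n => algebraMap k L (f n)) (algebraMap k L x) := by
  rintro p rfl
  refine (h _ rfl).congr fun n => ?_
  rw [← map_sub]
  rfl

/-- Elements close to one another have the same local class. -/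
theorem LS_of_lim {w : HeightOneSpectrum (𝓞 L)} {X : Type} {F : Filter X} {κ : X → Lˣ}
    {κ0 : Lˣ} (h : AE {paAbv (Sum.inl w)} F (fun n => (κ n : L)) κ0) :
    ∀ᶠ n in F, κ n * κ0⁻¹ ∈ LS (w.valuation L) := by
  have h1 := h.div (AE.const _ _ (κ0 : L)) κ0.ne_zero
  rw [div_self κ0.ne_zero] at h1
  filter_upwards [h1.eventually_lt rfl
    ((plAbv (Sum.inl w : Pl L)).pos (show (4 : L) ≠ 0 by norm_num))] with n hn
  refine ⟨1, ?_⟩
  rw [Units.val_one, one_pow, div_one, Units.val_mul, Units.val_inv_eq_inv_val,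
    ← div_eq_mul_inv]
  exact (plAbv_lt w _ _).1 hn

/-- Elements close to one at the infinite places are positive. -/
theorem pos_of_lim {X : Type} {F : Filter X} {κ : X → L}
    (h : ∀ u : InfinitePlace L, AE {paAbv (Sum.inr u)} F κ 1) :
    ∀ᶠ n in F, ∀ w : L →+* ℝ, 0 < w (κ n) := by
  have hfin : Finite (L →+* ℝ) := by
    refine Finite.of_injective (fun w : L →+* ℝ => Complex.ofRealHom.comp w) ?_
    intro w w' hw
    ext x
    have h1 := congrArg (fun f : L →+* ℂ => f x) hw
    exact Complex.ofReal_injective h1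
  rw [eventually_all]
  intro w
  filter_upwards [(h (InfinitePlace.mk (Complex.ofRealHom.comp w))).eventually_lt rfl one_pos]
    with n hn
  change InfinitePlace.mk (Complex.ofRealHom.comp w) (κ n - 1) < 1 at hn
  rw [InfinitePlace.apply] at hn
  change ‖((w (κ n - 1) : ℝ) : ℂ)‖ < 1 at hn
  rw [Complex.norm_real, Real.norm_eq_abs, map_sub, map_one, abs_lt] at hn
  linarith [hn.1]

end up

section cls

variable {k L : Type} [Field k] [NumberField k] [Field L] [NumberField L] [Algebra k L]
  {a b c : kˣ} {q : Lˣ}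

/-- The places of `k`: the infinite ones and the primes below a bad prime. -/
def TV (k : Type) {L : Type} [Field k] [NumberField k] [Field L] [NumberField L] [Algebra k L]
    (a : kˣ) (q : Lˣ) : Set (HeightOneSpectrum (𝓞 k) ⊕ InfinitePlace k) := TS (VB k a q)

theorem TV_finite : (TV k a q).Finite := TS_finite (VB_finite a q)

/-- The classes of the multipliers. -/
theorem classes {v0 : HeightOneSpectrum (𝓞 k)} {X : Type} {F : Filter X} {A B : X → k}
    {N1 N2 : X → Lˣ}
    (hN1 : ∀ n, (N1 n : L) = algebraMap k L (A n) ^ 2 - q * algebraMap k L b *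
      algebraMap k L (B n) ^ 2)
    (hN2 : ∀ n, (N2 n : L) = algebraMap k L (A n) ^ 2 - q * algebraMap k L c *
      algebraMap k L (B n) ^ 2)
    (h1 : ∀ p ∈ TV k a q, p ≠ Sum.inl v0 → AE {paAbv p} F A 1 ∧ AE {paAbv p} F B 0)
    (h0 : AE {paAbv (Sum.inl v0)} F A 0 ∧ AE {paAbv (Sum.inl v0)} F B 1) :
    ∀ᶠ n in F, N1 n * N2 n ∈ P0 k a q ∧ N2 n ∈ PosC k L a ∧ ∀ v w, Bad a q v w →
      (N2 n ∈ NF (up L a) ⊔ LS (w.valuation L) ↔ v ≠ v0) := by
  -- the limits of the norms
  have lim : ∀ (d : kˣ) {S : Set (AbsoluteValue L ℝ)} {A0 B0 : k},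
      AE S F (fun n => algebraMap k L (A n)) (algebraMap k L A0) →
      AE S F (fun n => algebraMap k L (B n)) (algebraMap k L B0) →
      AE S F (fun n => algebraMap k L (A n) ^ 2 - q * algebraMap k L d *
        algebraMap k L (B n) ^ 2)
        (algebraMap k L A0 ^ 2 - q * algebraMap k L d * algebraMap k L B0 ^ 2) :=
    fun d S A0 B0 hA hB => (hA.pow 2).sub ((AE.const _ _ _).mul (hB.pow 2))
  have inf : ∀ (d : kˣ) (u : InfinitePlace L), AE {paAbv (Sum.inr u)} F
      (fun n => algebraMap k L (A n) ^ 2 - q * algebraMap k L d * algebraMap k L (B n) ^ 2)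
        1 := by
    intro d u
    obtain ⟨g1, g2⟩ := h1 (Sum.inr (u.comap (algebraMap k L))) inr_mem_TS (by simp)
    have h := lim d (AE_up_inf u g1) (AE_up_inf u g2)
    simpa using h
  have e1 := pos_of_lim (inf b)
  have e2 := pos_of_lim (inf c)
  -- the bad primes
  have e3 : ∀ᶠ n in F, ∀ w ∈ {w : HeightOneSpectrum (𝓞 L) | Ram (up L a) q w}, ∀ v,
      Bad a q v w → N1 n * N2 n ∈ NF (up L a) ⊔ LS (w.valuation L) ∧
        (N2 n ∈ NF (up L a) ⊔ LS (w.valuation L) ↔ v ≠ v0) := by
    rw [eventually_all_finite (ram_finite _ _)]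
    intro w _
    obtain ⟨v1, hv1⟩ := exists_below (F := k) w
    by_cases hB : Bad a q v1 w
    swap
    · refine Eventually.of_forall fun n v hb => absurd ?_ hB
      rw [← below_unique hb.1 hv1]
      exact hb
    by_cases hv : v1 = v0
    · subst hv
      -- the limit of the multipliers
      have l1 := lim b (AE_up hv1 h0.1) (AE_up hv1 h0.2)
      have l2 := lim c (AE_up hv1 h0.1) (AE_up hv1 h0.2)
      have f1 : AE {paAbv (Sum.inl w)} F (fun n => (N1 n : L)) ((-(q * up L b) : Lˣ) : L) := by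
        refine l1.congr (fun n => (hN1 n).symm) ?_
        rw [map_zero, map_one, Units.val_neg, Units.val_mul]
        change _ = -((q : L) * algebraMap k L b)
        ring
      have f2 : AE {paAbv (Sum.inl w)} F (fun n => (N2 n : L)) ((-(q * up L c) : Lˣ) : L) := by
        refine l2.congr (fun n => (hN2 n).symm) ?_
        rw [map_zero, map_one, Units.val_neg, Units.val_mul]
        change _ = -((q : L) * algebraMap k L c)
        ring
      have hc1 : -(q * up L c) ∉ NF (up L a) ⊔ LS (w.valuation L) := by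
        intro hcon
        have h3 : up L (-c) ∈ NF (up L a) ⊔ LS (w.valuation L) := mem_of_even hB.1 hB.2.2 a (-c)
        have h4 : q * up L (-c) ∈ NF (up L a) ⊔ LS (w.valuation L) := by
          have e : q * up L (-c) = -(q * up L c) := by
            apply Units.ext
            rw [Units.val_neg, Units.val_mul, Units.val_mul]
            change (q : L) * algebraMap k L ((-c : kˣ) : k) = -(q * algebraMap k L c)
            rw [Units.val_neg, map_neg, mul_neg]
          rwa [e]
        exact hB.2.1 ((Subgroup.mul_mem_cancel_right _ h3).1 h4)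
      filter_upwards [LS_of_lim f1, LS_of_lim f2] with n g1 g2 v hb
      have hvv : v = v1 := below_unique hb.1 hv1
      subst hvv
      have g1' := Subgroup.mem_sup_right (S := NF (up L a)) g1
      have g2' := Subgroup.mem_sup_right (S := NF (up L a)) g2
      constructor
      · have h5 : N1 n * N2 n = (N1 n * (-(q * up L b))⁻¹) * (N2 n * (-(q * up L c))⁻¹) *
            (q ^ 2 * (up L b * up L c)) := by
          have e : q ^ 2 * (up L b * up L c) = (-(q * up L b)) * (-(q * up L c)) := by
            rw [neg_mul_neg, pow_two, mul_mul_mul_comm]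
          rw [e]
          calc N1 n * N2 n = (N1 n * (-(q * up L b))⁻¹ * (-(q * up L b))) *
              (N2 n * (-(q * up L c))⁻¹ * (-(q * up L c))) := by
                rw [inv_mul_cancel_right, inv_mul_cancel_right]
            _ = _ := by
              rw [mul_mul_mul_comm]
        rw [h5]
        refine mul_mem (mul_mem g1' g2') (mul_mem (Subgroup.mem_sup_right (sq_mem_LS _))
          (mul_mem (mem_of_even hb.1 hb.2.2 a b) (mem_of_even hb.1 hb.2.2 a c)))
      · refine ⟨fun h5 => absurd ?_ hc1, fun h5 => absurd rfl h5⟩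
        have h6 := (Subgroup.mul_mem_cancel_left _ h5).1 g2'
        exact (inv_mem_iff (H := NF (up L a) ⊔ LS (w.valuation L))).1 h6
    · have hmem : (Sum.inl v1 : HeightOneSpectrum (𝓞 k) ⊕ InfinitePlace k) ∈ TV k a q :=
        inl_mem_TS.mpr ⟨w, hB⟩
      obtain ⟨g1, g2⟩ := h1 _ hmem (fun h => hv (Sum.inl_injective h))
      have f1 : AE {paAbv (Sum.inl w)} F (fun n => (N1 n : L)) ((1 : Lˣ) : L) := by
        refine (lim b (AE_up hv1 g1) (AE_up hv1 g2)).congr (fun n => (hN1 n).symm) ?_
        simp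
      have f2 : AE {paAbv (Sum.inl w)} F (fun n => (N2 n : L)) ((1 : Lˣ) : L) := by
        refine (lim c (AE_up hv1 g1) (AE_up hv1 g2)).congr (fun n => (hN2 n).symm) ?_
        simp
      filter_upwards [LS_of_lim f1, LS_of_lim f2] with n k1 k2 v hb
      rw [inv_one, mul_one] at k1 k2
      have k1' := Subgroup.mem_sup_right (S := NF (up L a)) k1
      have k2' := Subgroup.mem_sup_right (S := NF (up L a)) k2
      refine ⟨mul_mem k1' k2', fun _ h => hv ?_, fun _ => k2'⟩
      rw [← h]
      exact (below_unique hb.1 hv1).symm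
  filter_upwards [e1, e2, e3] with n g1 g2 g3
  refine ⟨⟨pos_PosC fun w _ => ?_, fun v w hb => (g3 w hb.2.1 v hb).1⟩,
    pos_PosC fun w _ => ?_, fun v w hb => (g3 w hb.2.1 v hb).2⟩
  · rw [Units.val_mul, map_mul, hN1, hN2]
    exact mul_pos (g1 w) (g2 w)
  · rw [hN2]
    exact g2 w

end cls

end Vale.Agent.P011.D4W
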