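import Vale.Agent.P011.D4W.H684.Step
import Vale.Agent.P011.D4Y.H64.PlA
import Vale.Agent.P011.D4Y.H408.NearI

/-!
Block D4W (helper684): the condition at the bad real places and at finitely many primes.
-/

open NumberField IsDedekindDomain Topology Filter

set_option linter.unusedSectionVars false

namespace Vale.Agent.P011.D4W

open Vale.Agent.P011.Arith Vale.Agent.P011.MPQ Vale.Agent.P011.D4 Vale.Agent.P011.D4.Oct
  Vale.Agent.P011.E6
open Vale.Agent.P011.D4X Vale.Agent.P011.D4X.H691 Vale.Agent.P011.D4Y Vale.Agent.P011.D4Y.H659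

section sv

variable {k L E : Type} [Field k] [NumberField k] [Field L] [NumberField L] [Field E]
  [NumberField E] [Algebra k L] [Algebra k E] [Algebra L E] [IsScalarTower k L E]

/-- The absolute values of `E` at the infinite places and at the primes over `V`. -/
def SV (E : Type) [Field E] [NumberField E] [Algebra k E] (V : Set (HeightOneSpectrum (𝓞 k))) :
    Set (AbsoluteValue E ℝ) :=
  paAbv '' TS (ov E V)

theorem SV_finite {V : Set (HeightOneSpectrum (𝓞 k))} (hV : V.Finite) : (SV E V).Finite :=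
  (TS_finite (ov_finite hV)).image _

theorem SV_nonempty (V : Set (HeightOneSpectrum (𝓞 k))) : (SV E V).Nonempty := by
  obtain ⟨u⟩ : Nonempty (InfinitePlace E) := inferInstance
  exact ⟨_, Sum.inr u, inr_mem_TS, rfl⟩

theorem Stb_SV (V : Set (HeightOneSpectrum (𝓞 k))) (g : E ≃ₐ[k] E) : Stb (SV E V) g := by
  rintro _ ⟨Q, hQ, rfl⟩
  obtain ⟨q, hq, h⟩ := exists_rs (L := E) V g Q hQ
  exact ⟨_, ⟨q, hq, rfl⟩, h⟩

theorem mem_SV_of_prime {V : Set (HeightOneSpectrum (𝓞 k))} {P : HeightOneSpectrum (𝓞 E)}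
    (hP : P ∈ ov E V) : plAbv (Sum.inl P : Pl E) ∈ SV E V :=
  ⟨Sum.inl P, inl_mem_TS.mpr hP, rfl⟩

theorem mem_SV_of_emb (V : Set (HeightOneSpectrum (𝓞 k))) (W : E →+* ℂ) :
    ∃ p ∈ SV E V, ∀ x, p x = ‖W x‖ :=
  ⟨_, ⟨Sum.inr (InfinitePlace.mk W), inr_mem_TS, rfl⟩, fun x => by
    change InfinitePlace.mk W x = _
    rw [InfinitePlace.apply]⟩

end sv

section gc

variable {k L E : Type} [Field k] [NumberField k] [Field L] [NumberField L] [Field E]
  [NumberField E] [Algebra k L] [Algebra k E] [Algebra L E] [IsScalarTower k L E]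

/-- The element is a norm times an element of `ρ(L)` close to one at the primes over `V`. -/
def Gfin (L : Type) [Field L] [NumberField L] [Algebra k L] [Algebra L E]
    (ρ σ ι : E ≃ₐ[k] E) (V : Set (HeightOneSpectrum (𝓞 k))) (x : E) : Prop :=
  ∃ (t : E) (y : Lˣ), t ≠ 0 ∧ ι t = t ∧ x = t * σ t * ρ (algebraMap L E (y : L)) ∧
    ∀ w ∈ ov L V, w.valuation L ((y : L) - 1) < w.valuation L 4

/-- The condition at the bad real places and at the primes over `V`. -/
def GG (ρ σ ι : E ≃ₐ[k] E) (q : Lˣ) (V : Set (HeightOneSpectrum (𝓞 k))) (x : E) : Prop :=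
  (∀ W ∈ Bd ρ σ q, 0 < (W x).re) ∧ Gfin L ρ σ ι V x

theorem near_mul {F : Type} [Field F] [CharZero F] {w : Valuation F Z0} {x y : F}
    (hx : w (x - 1) < w 4) (hy : w (y - 1) < w 4) : w (x * y - 1) < w 4 := by
  have e : x * y - 1 = (x - 1) + (y - 1) + (x - 1) * (y - 1) := by ring
  rw [e]
  refine w.map_add_lt (w.map_add_lt hx hy) ?_
  rw [map_mul]
  calc _ ≤ w (x - 1) * 1 := mul_le_mul_right (le_trans hy.le (val_four_le w)) _
    _ < w 4 := by rwa [mul_one]

theorem near_inv {F : Type} [Field F] [CharZero F] {w : Valuation F Z0} {x : F} (hx0 : x ≠ 0)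
    (hx : w (x - 1) < w 4) : w (x⁻¹ - 1) < w 4 := by
  have h1 : w x = 1 := by
    have := w.map_one_add_of_lt (x := x - 1) (lt_of_lt_of_le hx (val_four_le w))
    rwa [add_sub_cancel] at this
  have e : x⁻¹ - 1 = -((x - 1) / x) := by
    field_simp
    ring
  rw [e, Valuation.map_neg, map_div₀, h1, div_one]
  exact hx

variable {ρ σ ι : E ≃ₐ[k] E} {V : Set (HeightOneSpectrum (𝓞 k))}

theorem Gfin_one : Gfin L ρ σ ι V (1 : E) := by
  refine ⟨1, 1, one_ne_zero, map_one ι, by simp, fun w _ => ?_⟩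
  rw [Units.val_one, sub_self, map_zero]
  exact zero_lt_iff.mpr ((Valuation.ne_zero_iff _).mpr (by norm_num))

theorem Gfin_ne {x : E} (h : Gfin L ρ σ ι V x) : x ≠ 0 := by
  obtain ⟨t, y, ht, -, rfl, -⟩ := h
  exact mul_ne_zero (mul_ne_zero ht ((map_ne_zero σ).2 ht))
    ((map_ne_zero ρ).2 ((map_ne_zero _).2 y.ne_zero))

theorem Gfin_nrm {t x : E} (ht : t ≠ 0) (hι : ι t = t) (h : Gfin L ρ σ ι V x) :
    Gfin L ρ σ ι V (t * σ t * x) := by
  obtain ⟨s, y, hs, hsι, rfl, hy⟩ := h
  refine ⟨t * s, y, mul_ne_zero ht hs, by rw [map_mul, hι, hsι], ?_, hy⟩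
  rw [map_mul]
  ring

theorem Gfin_div {x y : E} (hx : Gfin L ρ σ ι V x) (hy : Gfin L ρ σ ι V y) :
    Gfin L ρ σ ι V (x / y) := by
  obtain ⟨s, u, hs, hsι, rfl, hu⟩ := hx
  obtain ⟨t, v, ht, htι, rfl, hv⟩ := hy
  refine ⟨s / t, u * v⁻¹, div_ne_zero hs ht, by rw [map_div₀, hsι, htι], ?_, fun w hw => ?_⟩
  · have h1 : σ t ≠ 0 := (map_ne_zero σ).2 ht
    have h2 : ρ (algebraMap L E (v : L)) ≠ 0 :=
      (map_ne_zero ρ).2 ((map_ne_zero _).2 v.ne_zero)
    rw [Units.val_mul, Units.val_inv_eq_inv_val, map_mul, map_mul, map_inv₀, map_inv₀, map_div₀]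
    field_simp
  · rw [Units.val_mul, Units.val_inv_eq_inv_val]
    exact near_mul (hu w hw) (near_inv v.ne_zero (hv w hw))

end gc

section inst

variable {k L E : Type} [Field k] [NumberField k] [Field L] [NumberField L] [Field E]
  [NumberField E] [Algebra k L] [Algebra k E] [Algebra L E] [IsScalarTower k L E]
  {ρ σ ι : E ≃ₐ[k] E} {α : E} {a b c : kˣ} {q : Lˣ} (H : HyI ρ σ ι α a b c q)

include H

theorem nrm_fix {t : E} (h : ι t = t) : σ (t * σ t) = t * σ t ∧ ι (t * σ t) = t * σ t := by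
  refine ⟨?_, ?_⟩
  · rw [map_mul, H.σ2, mul_comm]
  · rw [map_mul, ← H.σι, h]

/-- **The conditions of the chain lemma.** -/
theorem GG_gc {V : Set (HeightOneSpectrum (𝓞 k))} (hV : V.Finite) :
    GC σ ι (SV E V) (GG ρ σ ι q V) where
  one := ⟨fun W _ => by rw [map_one, Complex.one_re]; exact one_pos, Gfin_one⟩
  ne := fun h => Gfin_ne h.2
  nrm := fun {t x} ht hι h => ⟨fun W hW => by
    rw [map_mul, map_mul, hW.1 t, Complex.mul_conj, Complex.re_ofReal_mul]
    exact mul_pos (Complex.normSq_pos.2 ((map_ne_zero W).2 ht)) (h.1 W hW),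
    Gfin_nrm ht hι h.2⟩
  div := fun {x y} hx hy => by
    refine ⟨fun W hW => ?_, Gfin_div hx.2 hy.2⟩
    have key : ∀ z : E, Gfin L ρ σ ι V z → (W z).im = 0 := by
      rintro z ⟨t, u, ht, htι, rfl, -⟩
      obtain ⟨h1, -⟩ := nrm_fix H htι
      have h3 : σ (t * σ t * ρ (algebraMap L E (u : L))) =
          t * σ t * ρ (algebraMap L E (u : L)) := by
        rw [map_mul, h1, H.comm, H.σL]
      have h4 := hW.1 (t * σ t * ρ (algebraMap L E (u : L)))
      rw [h3] at h4
      exact Complex.conj_eq_iff_im.1 h4.symm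
    have e1 : W x = ((W x).re : ℂ) := Complex.ext rfl (by rw [key x hx.2, Complex.ofReal_im])
    have e2 : W y = ((W y).re : ℂ) := Complex.ext rfl (by rw [key y hy.2, Complex.ofReal_im])
    rw [map_div₀, e1, e2, ← Complex.ofReal_div, Complex.ofReal_re]
    exact div_pos (hx.1 W hW) (hy.1 W hW)
  opn := by
    intro X F f x hf hx
    have hx0 : x ≠ 0 := Gfin_ne hx.2
    have c1 : ∀ᶠ v in F, ∀ W ∈ Bd ρ σ q, 0 < (W (f v)).re := by
      rw [eventually_all_finite (Set.toFinite _)]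
      intro W hW
      obtain ⟨p, hp, hpW⟩ := mem_SV_of_emb V W
      filter_upwards [hf.eventually_lt hp (hx.1 W hW)] with v hv
      rw [hpW, map_sub] at hv
      have h1 := Complex.abs_re_le_norm (W (f v) - W x)
      rw [Complex.sub_re] at h1
      have h2 := (abs_le.1 h1).1
      linarith
    have hf' : AE (SV E V) F (fun v => f v / x) 1 := by
      have := hf.div (AE.const _ _ x) hx0
      rwa [div_self hx0] at this
    have c2 : ∀ᶠ v in F, ∀ P ∈ ov E V, P.valuation E (f v / x - 1) < P.valuation E 4 := by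
      rw [eventually_all_finite (ov_finite hV)]
      intro P hP
      filter_upwards [hf'.eventually_lt (mem_SV_of_prime hP)
        ((plAbv (Sum.inl P : Pl E)).pos (show (4 : E) ≠ 0 by norm_num))] with v hv
      exact (plAbv_lt P _ _).1 hv
    filter_upwards [c1, c2, hf.eventually_ne (SV_nonempty V) hx0] with v g1 g2 g3 hσ hι
    refine ⟨g1, ?_⟩
    obtain ⟨t, u, ht, htι, hxe, hu⟩ := hx.2
    obtain ⟨k1, k2⟩ := nrm_fix H htι
    have hxσ : σ x = x := by
      rw [hxe, map_mul, k1, H.comm, H.σL]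
    have hxι : ι x = x := by
      rw [hxe, map_mul, k2, H.ιρ, H.ιL, H.ρ3]
    obtain ⟨z, hz⟩ := fix_rho H (e := f v / x) (by rw [map_div₀, hσ, hxσ])
      (by rw [map_div₀, hι, hxι])
    have hnear : ∀ w ∈ ov L V, w.valuation L (z - 1) < w.valuation L 4 := by
      rintro w ⟨v0, hv0, hwv⟩
      obtain ⟨P, hP⟩ := exists_above (E := E) w
      obtain ⟨P', hP', hP'v⟩ := exists_conj (F := k) ρ P
      have hPv : P.asIdeal.comap (algebraMap (𝓞 k) (𝓞 E)) = v0.asIdeal := by
        rw [← hwv, ← hP, Ideal.comap_comap]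
        congr 1
        ext x
        exact IsScalarTower.algebraMap_apply k L E (x : k)
      have h1 := g2 P' ⟨v0, hv0, (hP'v v0).1 hPv⟩
      rw [← hz, ← map_one ρ, ← map_one (algebraMap L E), ← map_sub, ← map_sub, hP'] at h1
      have h4 : P'.valuation E 4 = P.valuation E 4 := by
        rw [← hP' 4, show ρ (4 : E) = 4 from map_ofNat ρ 4]
      rw [h4, ← map_ofNat (algebraMap L E) 4, val_lt_val_iff hP] at h1
      exact h1
    have hz0 : z ≠ 0 := by
      rintro rfl
      rw [map_zero, map_zero] at hz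
      exact g3 ((div_eq_zero_iff.1 hz.symm).resolve_right hx0)
    refine ⟨t, u * Units.mk0 z hz0, ht, htι, ?_, fun w hw => ?_⟩
    · rw [Units.val_mul, Units.val_mk0, map_mul, map_mul, hz]
      calc f v = x * (f v / x) := by field_simp
        _ = (t * σ t * ρ (algebraMap L E (u : L))) * (f v / x) := by rw [← hxe]
        _ = _ := by ring
    · rw [Units.val_mul, Units.val_mk0]
      exact near_mul (hu w hw) (hnear w hw)

end inst

end Vale.Agent.P011.D4W
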