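import Vale.Agent.P011.D4W.H684.StepO
import Vale.Agent.P011.D4Y.H657.Bas

/-!
Block D4W (helper684): the product of two special elements of the centralisers of two orthogonal
involutions moves the standard vector to a vector close to its line.
-/

open NumberField IsDedekindDomain Topology Filter

set_option linter.unusedSectionVars false

namespace Vale.Agent.P011.D4W

open Vale.Agent.P011.Arith Vale.Agent.P011.MPQ Vale.Agent.P011.D4 Vale.Agent.P011.D4.Oct
  Vale.Agent.P011.E6
open Vale.Agent.P011.D4X Vale.Agent.P011.D4X.H691 Vale.Agent.P011.D4Y Vale.Agent.P011.D4Y.H659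
open Vale.Agent.P011.D4Y.H408 Vale.Agent.P011.D4X.H862

section alg

variable {k L E : Type} [Field k] [Field L] [Field E] [Algebra k L] [Algebra k E] [Algebra L E]
  [IsScalarTower k L E] [NeZero (2 : E)] {ρ : E ≃ₐ[k] E} {α : E} {a b c : kˣ} {q : Lˣ}

/-- The change of frame. -/
theorem tripO_swap (_hα : α * α = algebraMap k E a) (h : Trip a c b (gi : Oct a b c) gl gj)
    (s s' t t' : E) :
    tripO E h (⟨D4X.mk4 (up E a) (up E c) α s s' t t', 0⟩ : OctL E a c b) =
      ⟨D4X.mk4 (up E a) (up E b) α s s' 0 0, D4X.mk4 (up E a) (up E b) α t t' 0 0⟩ := by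
  have h0 : Oct.qemb (oup E (gi : Oct a b c)) (oup E gl) (0 : Qt (up E a) (up E c)) = 0 := by
    unfold Oct.qemb
    simp
  rw [tripO_apply]
  unfold Oct.emb
  rw [h0, zero_mul, add_zero, oup_gi, oup_gl]
  unfold Oct.qemb
  have e : (gi : OctL E a b c) * gl = ⟨0, ⟨0, 1, 0, 0⟩⟩ := by
    apply Oct.ext
    · rw [fst_mul]
      change (⟨0, 1, 0, 0⟩ : Qt (up E a) (up E b)) * 0 +
        ((up E c : Eˣ) : E) • (star (1 : Qt (up E a) (up E b)) * 0) = 0
      rw [mul_zero, mul_zero, smul_zero, add_zero]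
    · rw [snd_mul]
      change (1 : Qt (up E a) (up E b)) * ⟨0, 1, 0, 0⟩ +
        (0 : Qt (up E a) (up E b)) * star (0 : Qt (up E a) (up E b)) = _
      rw [one_mul, zero_mul, add_zero]
  rw [e]
  refine Oct.ext (QuaternionAlgebra.ext ?_ ?_ ?_ ?_) (QuaternionAlgebra.ext ?_ ?_ ?_ ?_)
  · change (s + s') / 2 * 1 + (s - s') / (2 * α) * 0 + (t + t') / 2 * 0 +
      (t - t') / (2 * α) * 0 = (s + s') / 2
    ring
  · change (s + s') / 2 * 0 + (s - s') / (2 * α) * 1 + (t + t') / 2 * 0 +
      (t - t') / (2 * α) * 0 = (s - s') / (2 * α)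
    ring
  · change (s + s') / 2 * 0 + (s - s') / (2 * α) * 0 + (t + t') / 2 * 0 +
      (t - t') / (2 * α) * 0 = (0 + 0) / 2
    ring
  · change (s + s') / 2 * 0 + (s - s') / (2 * α) * 0 + (t + t') / 2 * 0 +
      (t - t') / (2 * α) * 0 = (0 - 0) / (2 * α)
    ring
  · change (s + s') / 2 * 0 + (s - s') / (2 * α) * 0 + (t + t') / 2 * 1 +
      (t - t') / (2 * α) * 0 = (t + t') / 2
    ring
  · change (s + s') / 2 * 0 + (s - s') / (2 * α) * 0 + (t + t') / 2 * 0 +
      (t - t') / (2 * α) * 1 = (t - t') / (2 * α)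
    ring
  · change (s + s') / 2 * 0 + (s - s') / (2 * α) * 0 + (t + t') / 2 * 0 +
      (t - t') / (2 * α) * 0 = (0 + 0) / 2
    ring
  · change (s + s') / 2 * 0 + (s - s') / (2 * α) * 0 + (t + t') / 2 * 0 +
      (t - t') / (2 * α) * 0 = (0 - 0) / (2 * α)
    ring

theorem psi_AB (hα : α * α = algebraMap k E a) (A B : k) :
    (psiL α q (⟨algebraMap k L A, 0, algebraMap k L B, 0⟩ : Qt (up L a) (q * up L b)) :
      Qt (up E a) (up E b)) = D4X.mk4 (up E a) (up E b) α (algebraMap k E A) (algebraMap k E A)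
        (algebraMap L E (q : L) * algebraMap k E B) (algebraMap k E B) := by
  have h0 := al_ne (a := up E a) hα
  have h2 : (2 : E) ≠ 0 := NeZero.ne _
  ext
  · simp [psiL, D4X.mk4, ← IsScalarTower.algebraMap_apply]
  · simp [psiL, D4X.mk4]
  · simp [psiL, D4X.mk4, ← IsScalarTower.algebraMap_apply]
  · simp [psiL, D4X.mk4, ← IsScalarTower.algebraMap_apply]

/-- The element of the centraliser of the swapped frame, on the standard vector. -/
theorem zFI_swap (hα : α * α = algebraMap k E a) (hρα : ρ α = α) (A B : k) (x0 : Qt a c)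
    (s : kˣ) :
    zFI ρ α q x0 (⟨algebraMap k L A, 0, algebraMap k L B, 0⟩ : Qt (up L a) (q * up L c)) s
      (⟨D4X.mk4 (up E a) (up E c) α 0 0 1 0, 0⟩ : OctL E a c b) =
      ⟨D4X.mk4 (up E a) (up E c) α (-(algebraMap k E c * algebraMap k E A * algebraMap k E B))
        (algebraMap k E c * algebraMap k E A * algebraMap k E B) (algebraMap k E A ^ 2)
        (-(algebraMap k E c * algebraMap k E B ^ 2)), 0⟩ := by
  have hα' : α * α = ((up E a : Eˣ) : E) := hα
  have hc : ((up E c : Eˣ) : E) = algebraMap k E c := rfl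
  unfold zFI
  apply Oct.ext
  · change psiL α q _ * D4X.mk4 (up E a) (up E c) α 0 0 1 0 * star (qmap ρ (qmap ρ (psiL α q _))) = _
    rw [psi_AB hα, qmap_mk4 hρα, qmap_mk4 hρα, star_mk4, mk4_mul hα', mk4_mul hα']
    simp only [AlgEquiv.commutes, map_mul, hc]
    congr 1 <;> ring
  · change _ • (qup E x0 * 0 * _) = (0 : Qt (up E a) (up E c))
    rw [mul_zero, zero_mul, smul_zero]

/-- The element of the standard centraliser, on the image. -/
theorem zFI_std (hα : α * α = algebraMap k E a) (hρα : ρ α = α) (A B : k) (x0 : Qt a b)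
    (s : kˣ) :
    zFI ρ α q x0 (⟨algebraMap k L A, 0, algebraMap k L B, 0⟩ : Qt (up L a) (q * up L b)) s
      (⟨D4X.mk4 (up E a) (up E b) α (-(algebraMap k E c * algebraMap k E A * algebraMap k E B))
        (algebraMap k E c * algebraMap k E A * algebraMap k E B) 0 0,
        D4X.mk4 (up E a) (up E b) α (algebraMap k E A ^ 2)
        (-(algebraMap k E c * algebraMap k E B ^ 2)) 0 0⟩ : OctL E a b c) =
      ⟨(-(algebraMap k E c) * (algebraMap k E A * algebraMap k E B)) •
        D4X.mk4 (up E a) (up E b) α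
          (algebraMap k E A ^ 2 + algebraMap k E b * algebraMap L E q * algebraMap k E B ^ 2)
          (-(algebraMap k E A ^ 2 + algebraMap k E b * ρ (ρ (algebraMap L E q)) *
            algebraMap k E B ^ 2))
          (-(algebraMap k E A * algebraMap k E B * (algebraMap L E q + ρ (ρ (algebraMap L E q)))))
          (2 * (algebraMap k E A * algebraMap k E B)),
        ((algebraMap k E A ^ 2 - algebraMap L E q * algebraMap k E b * algebraMap k E B ^ 2) *
          (algebraMap k E A ^ 2 - ρ (ρ (algebraMap L E q)) * algebraMap k E b *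
            algebraMap k E B ^ 2) / algebraMap k E (s : k)) •
          (qup E x0 * D4X.mk4 (up E a) (up E b) α (algebraMap k E A ^ 3)
            (-(algebraMap k E c * algebraMap k E A * algebraMap k E B ^ 2))
            (-(ρ (algebraMap L E q) * algebraMap k E A ^ 2 * algebraMap k E B))
            (algebraMap k E c * algebraMap k E B ^ 3))⟩ := by
  have hα' : α * α = ((up E a : Eˣ) : E) := hα
  have hb : ((up E b : Eˣ) : E) = algebraMap k E b := rfl
  have hν : nrd (⟨algebraMap k L A, 0, algebraMap k L B, 0⟩ : Qt (up L a) (q * up L b)) =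
      algebraMap k L A ^ 2 - q * algebraMap k L b * algebraMap k L B ^ 2 := by
    unfold nrd
    change _ ^ 2 - _ * (0 : L) ^ 2 - ((q * up L b : Lˣ) : L) * _ ^ 2 + _ * _ * (0 : L) ^ 2 = _
    rw [Units.val_mul]
    change _ - (q : L) * algebraMap k L b * _ + _ = _
    ring
  unfold zFI
  apply Oct.ext
  · change psiL α q _ * D4X.mk4 (up E a) (up E b) α _ _ 0 0 *
      star (qmap ρ (qmap ρ (psiL α q _))) = _
    rw [psi_AB hα, qmap_mk4 hρα, qmap_mk4 hρα, star_mk4, mk4_mul hα', mk4_mul hα', smul_mk4]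
    simp only [AlgEquiv.commutes, map_mul, hb]
    congr 1 <;> ring
  · change (_ * ρ (ρ _) / _) • (qup E x0 * D4X.mk4 (up E a) (up E b) α _ _ 0 0 *
      star (qmap ρ (psiL α q _))) = _
    rw [hν, psi_AB hα, qmap_mk4 hρα, star_mk4, mul_assoc (qup E x0), mk4_mul hα']
    simp only [AlgEquiv.commutes, map_mul, map_sub, map_pow, hb,
      ← IsScalarTower.algebraMap_apply]
    congr 2
    congr 1 <;> ring

end alg

section lim

variable {E X : Type} [Field E] {S : Set (AbsoluteValue E ℝ)} {F : Filter X}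

theorem AE.congr' {f g : X → E} {x : E} (hf : AE S F f x) (h : ∀ᶠ v in F, f v = g v) :
    AE S F g x := fun p hp => (hf p hp).congr' (h.mono fun v hv => by rw [hv])

theorem AQ.congr' {a b : Eˣ} {f g : X → Qt a b} {x : Qt a b} (hf : AQ S F f x)
    (h : ∀ᶠ v in F, f v = g v) : AQ S F g x :=
  ⟨hf.1.congr' (h.mono fun v hv => by rw [hv]), hf.2.1.congr' (h.mono fun v hv => by rw [hv]),
    hf.2.2.1.congr' (h.mono fun v hv => by rw [hv]),
    hf.2.2.2.congr' (h.mono fun v hv => by rw [hv])⟩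

theorem AO.congr' {a b c : Eˣ} {f g : X → Oct a b c} {x : Oct a b c} (hf : AO S F f x)
    (h : ∀ᶠ v in F, f v = g v) : AO S F g x :=
  ⟨hf.1.congr' (h.mono fun v hv => by rw [hv]), hf.2.congr' (h.mono fun v hv => by rw [hv])⟩

theorem AE_iff {f : X → E} {x : E} : AE S F f x ↔ ∀ p ∈ S, AE {p} F f x :=
  ⟨fun h p hp p' hp' => by rw [Set.mem_singleton_iff.1 hp']; exact h p hp,
    fun h p hp => h p hp p rfl⟩

theorem AQ_iff {a b : Eˣ} {f : X → Qt a b} {x : Qt a b} :
    AQ S F f x ↔ ∀ p ∈ S, AQ {p} F f x :=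
  ⟨fun h p hp => ⟨AE_iff.1 h.1 p hp, AE_iff.1 h.2.1 p hp, AE_iff.1 h.2.2.1 p hp,
    AE_iff.1 h.2.2.2 p hp⟩, fun h => ⟨AE_iff.2 fun p hp => (h p hp).1,
    AE_iff.2 fun p hp => (h p hp).2.1, AE_iff.2 fun p hp => (h p hp).2.2.1,
    AE_iff.2 fun p hp => (h p hp).2.2.2⟩⟩

/-- The limits may be computed at each absolute value. -/
theorem AO_iff {a b c : Eˣ} {f : X → Oct a b c} {x : Oct a b c} :
    AO S F f x ↔ ∀ p ∈ S, AO {p} F f x :=
  ⟨fun h p hp => ⟨AQ_iff.1 h.1 p hp, AQ_iff.1 h.2 p hp⟩,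
    fun h => ⟨AQ_iff.2 fun p hp => (h p hp).1, AQ_iff.2 fun p hp => (h p hp).2⟩⟩

/-- The product of a function whose square converges with a function which tends to zero. -/
theorem AE.mul_of_sq {s z : X → E} {s0 : E} (hs : AE S F (fun n => s n ^ 2) s0)
    (hz : AE S F z 0) : AE S F (fun n => s n * z n) 0 := by
  intro p hp
  have h1 : Tendsto (fun n => p (s n)) F (𝓝 (Real.sqrt (p s0))) := by
    refine ((hs.tendsto hp).sqrt).congr fun n => ?_
    rw [map_pow, Real.sqrt_sq (p.nonneg _)]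
  have h2 := h1.mul (hz p hp)
  rw [mul_zero] at h2
  refine h2.congr fun n => ?_
  rw [sub_zero, sub_zero, map_mul]

theorem AQ_mk4 [NeZero (2 : E)] {a b : Eˣ} {α : E} (hα : α ≠ 0) {s s' t t' : X → E}
    {u u' v v' : E} (h1 : AE S F s u) (h2 : AE S F s' u') (h3 : AE S F t v)
    (h4 : AE S F t' v') :
    AQ S F (fun n => D4X.mk4 a b α (s n) (s' n) (t n) (t' n)) (D4X.mk4 a b α u u' v v') := by
  have n2 : (2 : E) ≠ 0 := NeZero.ne _
  have na : (2 : E) * α ≠ 0 := mul_ne_zero n2 hα
  exact ⟨(h1.add h2).div (.const _ _ _) n2, (h1.sub h2).div (.const _ _ _) na,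
    (h3.add h4).div (.const _ _ _) n2, (h3.sub h4).div (.const _ _ _) na⟩

end lim

section main

variable {k L E : Type} [Field k] [Field L] [Field E] [Algebra k L] [Algebra k E] [Algebra L E]
  [IsScalarTower k L E] [NeZero (2 : E)] {ρ σ ι : E ≃ₐ[k] E} {α : E} {a b c : kˣ} {q : Lˣ}

/-- The coordinate along the standard vector. -/
def cf (α : E) {a b c : kˣ} (v : OctL E a b c) : E := v.snd.re + v.snd.imI * α

/-- The image of the standard vector by the product of the two elements. -/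
theorem gvl (hα : α * α = algebraMap k E a) (hρα : ρ α = α)
    (h : Trip a c b (gi : Oct a b c) gl gj) {A B : k} {x0 : Qt a b} {x0' : Qt a c} {s s' : kˣ}
    {z' z'' : ATI ρ σ ι α a b c q}
    (hz' : ∀ y, z'.1 y = zFI ρ α q x0
      (⟨algebraMap k L A, 0, algebraMap k L B, 0⟩ : Qt (up L a) (q * up L b)) s y)
    (hz'' : ∀ y : OctL E a c b, z''.1 (tripO E h y) = tripO E h (zFI ρ α q x0'
      (⟨algebraMap k L A, 0, algebraMap k L B, 0⟩ : Qt (up L a) (q * up L c)) s' y)) :
    (z' * z'').1 (ep α * oup E (gl : Oct a b c)) =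
      ⟨(-(algebraMap k E c) * (algebraMap k E A * algebraMap k E B)) •
        D4X.mk4 (up E a) (up E b) α
          (algebraMap k E A ^ 2 + algebraMap k E b * algebraMap L E q * algebraMap k E B ^ 2)
          (-(algebraMap k E A ^ 2 + algebraMap k E b * ρ (ρ (algebraMap L E q)) *
            algebraMap k E B ^ 2))
          (-(algebraMap k E A * algebraMap k E B * (algebraMap L E q + ρ (ρ (algebraMap L E q)))))
          (2 * (algebraMap k E A * algebraMap k E B)),
        ((algebraMap k E A ^ 2 - algebraMap L E q * algebraMap k E b * algebraMap k E B ^ 2) *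
          (algebraMap k E A ^ 2 - ρ (ρ (algebraMap L E q)) * algebraMap k E b *
            algebraMap k E B ^ 2) / algebraMap k E (s : k)) •
          (qup E x0 * D4X.mk4 (up E a) (up E b) α (algebraMap k E A ^ 3)
            (-(algebraMap k E c * algebraMap k E A * algebraMap k E B ^ 2))
            (-(ρ (algebraMap L E q) * algebraMap k E A ^ 2 * algebraMap k E B))
            (algebraMap k E c * algebraMap k E B ^ 3))⟩ := by
  have e0 : (ep α * oup E (gl : Oct a b c) : OctL E a b c) =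
      tripO E h (⟨D4X.mk4 (up E a) (up E c) α 0 0 1 0, 0⟩ : OctL E a c b) := by
    rw [← D4X.H862.vl_eq, tripO_swap hα, D4X.H862.vl, mk4_zero]
  change z'.1 (z''.1 _) = _
  rw [e0, hz'', zFI_swap hα hρα, tripO_swap hα, hz', zFI_std hα hρα]

/-- **The limit.** -/
theorem gvl_lim {S : Set (AbsoluteValue E ℝ)} (hne : S.Nonempty) {X : Type} {F : Filter X}
    (hα : α * α = algebraMap k E a) (hρα : ρ α = α)
    (h : Trip a c b (gi : Oct a b c) gl gj) {A B : X → k} {x0 : X → Qt a b} {x0' : X → Qt a c}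
    {s s' : X → kˣ} {z' z'' : X → ATI ρ σ ι α a b c q}
    (hz' : ∀ n y, (z' n).1 y = zFI ρ α q (x0 n)
      (⟨algebraMap k L (A n), 0, algebraMap k L (B n), 0⟩ : Qt (up L a) (q * up L b)) (s n) y)
    (hz'' : ∀ n, ∀ y : OctL E a c b, (z'' n).1 (tripO E h y) = tripO E h (zFI ρ α q (x0' n)
      (⟨algebraMap k L (A n), 0, algebraMap k L (B n), 0⟩ : Qt (up L a) (q * up L c)) (s' n) y))
    {A0 B0 s0 D0 : E} {X0 : Qt (up E a) (up E b)}
    (hA : AE S F (fun n => algebraMap k E (A n)) A0)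
    (hB : AE S F (fun n => algebraMap k E (B n)) B0)
    (hs : AE S F (fun n => algebraMap k E (s n : k) ^ 2) s0)
    (hx : AQ S F (fun n => qup E (x0 n)) X0) (hAB : A0 * B0 = 0)
    (hν : (A0 ^ 2 - algebraMap L E q * algebraMap k E b * B0 ^ 2) *
      (A0 ^ 2 - ρ (ρ (algebraMap L E q)) * algebraMap k E b * B0 ^ 2) ≠ 0) (hD0 : D0 ≠ 0)
    (hD : X0 * D4X.mk4 (up E a) (up E b) α (A0 ^ 3) (-(algebraMap k E c * A0 * B0 ^ 2))
      (-(ρ (algebraMap L E q) * A0 ^ 2 * B0)) (algebraMap k E c * B0 ^ 3) =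
        D4X.mk4 (up E a) (up E b) α D0 0 0 0) :
    AO S F (fun n => (cf α ((z' n * z'' n).1 (ep α * oup E (gl : Oct a b c))))⁻¹ •
      (z' n * z'' n).1 (ep α * oup E (gl : Oct a b c))) (ep α * oup E (gl : Oct a b c)) := by
  have hα0 : α ≠ 0 := al_ne (a := up E a) hα
  have n2 : (2 : E) ≠ 0 := NeZero.ne _
  -- the names
  obtain ⟨P, hP⟩ : ∃ P : X → E, ∀ n, P n = (algebraMap k E (A n) ^ 2 -
      algebraMap L E q * algebraMap k E b * algebraMap k E (B n) ^ 2) *
      (algebraMap k E (A n) ^ 2 - ρ (ρ (algebraMap L E q)) * algebraMap k E b *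
        algebraMap k E (B n) ^ 2) := ⟨_, fun _ => rfl⟩
  obtain ⟨W, hW⟩ : ∃ W : X → Qt (up E a) (up E b), ∀ n, W n =
      qup E (x0 n) * D4X.mk4 (up E a) (up E b) α (algebraMap k E (A n) ^ 3)
            (-(algebraMap k E c * algebraMap k E (A n) * algebraMap k E (B n) ^ 2))
            (-(ρ (algebraMap L E q) * algebraMap k E (A n) ^ 2 * algebraMap k E (B n)))
            (algebraMap k E c * algebraMap k E (B n) ^ 3) := ⟨_, fun _ => rfl⟩
  obtain ⟨V, hV⟩ : ∃ V : X → Qt (up E a) (up E b), ∀ n, V n = D4X.mk4 (up E a) (up E b) α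
          (algebraMap k E (A n) ^ 2 + algebraMap k E b * algebraMap L E q *
            algebraMap k E (B n) ^ 2)
          (-(algebraMap k E (A n) ^ 2 + algebraMap k E b * ρ (ρ (algebraMap L E q)) *
            algebraMap k E (B n) ^ 2))
          (-(algebraMap k E (A n) * algebraMap k E (B n) *
            (algebraMap L E q + ρ (ρ (algebraMap L E q)))))
          (2 * (algebraMap k E (A n) * algebraMap k E (B n))) := ⟨_, fun _ => rfl⟩
  have hg : ∀ n, (z' n * z'' n).1 (ep α * oup E (gl : Oct a b c)) =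
      ⟨(-(algebraMap k E c) * (algebraMap k E (A n) * algebraMap k E (B n))) • V n,
        (P n / algebraMap k E (s n : k)) • W n⟩ := fun n => by
    rw [gvl hα hρα h (hz' n) (hz'' n), hP, hW, hV]
  -- the limits
  have lAB : AE S F (fun n => algebraMap k E (A n) * algebraMap k E (B n)) 0 := by
    rw [← hAB]
    exact hA.mul hB
  have lP : AE S F P ((A0 ^ 2 - algebraMap L E q * algebraMap k E b * B0 ^ 2) *
      (A0 ^ 2 - ρ (ρ (algebraMap L E q)) * algebraMap k E b * B0 ^ 2)) := by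
    refine AE.congr (f := _) ?_ (fun n => (hP n).symm) rfl
    exact ((hA.pow 2).sub ((AE.const _ _ _).mul (hB.pow 2))).mul
      ((hA.pow 2).sub ((AE.const _ _ _).mul (hB.pow 2)))
  have lW : AQ S F W (D4X.mk4 (up E a) (up E b) α D0 0 0 0) := by
    rw [← hD]
    have h1 := hx.mul (AQ_mk4 (a := up E a) (b := up E b) hα0 (hA.pow 3)
      (((AE.const S F (algebraMap k E c)).mul hA).mul (hB.pow 2)).neg
      (((AE.const S F (ρ (algebraMap L E q))).mul (hA.pow 2)).mul hB).neg
      ((AE.const S F (algebraMap k E c)).mul (hB.pow 3)))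
    exact h1.congr' (Eventually.of_forall fun n => (hW n).symm)
  obtain ⟨V0, lV⟩ : ∃ V0, AQ S F V V0 := ⟨_, (AQ_mk4 (a := up E a) (b := up E b) hα0
      ((hA.pow 2).add ((AE.const S F (algebraMap k E b * algebraMap L E q)).mul (hB.pow 2)))
      ((hA.pow 2).add ((AE.const S F (algebraMap k E b * ρ (ρ (algebraMap L E q)))).mul
        (hB.pow 2))).neg
      ((hA.mul hB).mul (AE.const S F (algebraMap L E q + ρ (ρ (algebraMap L E q))))).neg
      ((AE.const S F 2).mul (hA.mul hB))).congr' (Eventually.of_forall fun n => (hV n).symm)⟩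
  have lD : AE S F (fun n => (W n).re + (W n).imI * α) D0 := by
    have h1 := lW.1.add (lW.2.1.mul (AE.const S F α))
    refine h1.congr (fun _ => rfl) ?_
    change (D0 + 0) / 2 + (D0 - 0) / (2 * α) * α = D0
    field_simp
    ring
  have nD := lD.eventually_ne hne hD0
  have nP := lP.eventually_ne hne hν
  have hcf : ∀ n, cf α ((z' n * z'' n).1 (ep α * oup E (gl : Oct a b c))) =
      P n / algebraMap k E (s n : k) * ((W n).re + (W n).imI * α) := fun n => by
    rw [hg, cf]
    change P n / _ * (W n).re + P n / _ * (W n).imI * α = _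
    ring
  have hs0 : ∀ n, algebraMap k E (s n : k) ≠ 0 := fun n => (map_ne_zero _).2 (s n).ne_zero
  rw [← D4X.H862.vl_eq]
  constructor
  · -- the first component
    have h1 := (AE.mul_of_sq hs lAB).mul ((lP.mul lD).inv (mul_ne_zero hν hD0))
    rw [zero_mul] at h1
    have h2 := AQ.smul ((AE.const S F (-(algebraMap k E c))).mul h1) lV
    rw [mul_zero, zero_smul] at h2
    refine h2.congr' ?_
    filter_upwards [nD, nP] with n g1 g2
    rw [D4X.H862.vl_eq, hcf, hg]
    change _ = (_ : E)⁻¹ • ((_ : E) • V n)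
    rw [smul_smul]
    congr 1
    have := hs0 n
    field_simp
  · -- the second component
    have h1 := AQ.smul (lD.inv hD0) lW
    have e1 : D0⁻¹ • D4X.mk4 (up E a) (up E b) α D0 0 0 0 =
        (D4X.H862.vl α a b c : OctL E a b c).snd := by
      rw [smul_mk4, inv_mul_cancel₀ hD0, mul_zero]
      rfl
    rw [e1] at h1
    refine h1.congr' ?_
    filter_upwards [nD, nP] with n g1 g2
    rw [D4X.H862.vl_eq, hcf, hg]
    change _ = (_ : E)⁻¹ • ((_ : E) • W n)
    rw [smul_smul]
    congr 1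
    have := hs0 n
    field_simp

/-- **The limit**, at the places where the two elements are close to one or close to the
reflections. -/
theorem gvl_lim' {S : Set (AbsoluteValue E ℝ)} (hne : S.Nonempty) {X : Type} {F : Filter X}
    (hα : α * α = algebraMap k E a) (hρα : ρ α = α)
    (h : Trip a c b (gi : Oct a b c) gl gj) {A B : X → k} {x0 : X → Qt a b} {x0' : X → Qt a c}
    {s s' : X → kˣ} {z' z'' : X → ATI ρ σ ι α a b c q}
    (hz' : ∀ n y, (z' n).1 y = zFI ρ α q (x0 n)
      (⟨algebraMap k L (A n), 0, algebraMap k L (B n), 0⟩ : Qt (up L a) (q * up L b)) (s n) y)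
    (hz'' : ∀ n, ∀ y : OctL E a c b, (z'' n).1 (tripO E h y) = tripO E h (zFI ρ α q (x0' n)
      (⟨algebraMap k L (A n), 0, algebraMap k L (B n), 0⟩ : Qt (up L a) (q * up L c)) (s' n) y))
    (hl : (AE S F (fun n => algebraMap k E (A n)) 1 ∧ AE S F (fun n => algebraMap k E (B n)) 0 ∧
        AE S F (fun n => algebraMap k E (s n : k) ^ 2) 1 ∧
        AQ S F (fun n => qup E (x0 n)) 1) ∨
      (AE S F (fun n => algebraMap k E (A n)) 0 ∧ AE S F (fun n => algebraMap k E (B n)) 1 ∧
        (∃ s0 : E, AE S F (fun n => algebraMap k E (s n : k) ^ 2) s0) ∧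
        AQ S F (fun n => qup E (x0 n)) (⟨0, 0, 1, 0⟩ : Qt (up E a) (up E b)))) :
    AO S F (fun n => (cf α ((z' n * z'' n).1 (ep α * oup E (gl : Oct a b c))))⁻¹ •
      (z' n * z'' n).1 (ep α * oup E (gl : Oct a b c))) (ep α * oup E (gl : Oct a b c)) := by
  have hα' : α * α = ((up E a : Eˣ) : E) := hα
  have hb : algebraMap k E (b : k) ≠ 0 := (map_ne_zero _).2 b.ne_zero
  have hc : algebraMap k E (c : k) ≠ 0 := (map_ne_zero _).2 c.ne_zero
  have hq : algebraMap L E (q : L) ≠ 0 := (map_ne_zero _).2 q.ne_zero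
  have hq' : ρ (ρ (algebraMap L E (q : L))) ≠ 0 :=
    (map_ne_zero _).2 ((map_ne_zero _).2 hq)
  rcases hl with ⟨h1, h2, h3, h4⟩ | ⟨h1, h2, ⟨s0, h3⟩, h4⟩
  · refine gvl_lim hne hα hρα h hz' hz'' h1 h2 h3 h4 (mul_zero _) ?_ one_ne_zero ?_
    · simp
    · rw [one_mul]
      simp
  · refine gvl_lim hne hα hρα h hz' hz'' h1 h2 h3 h4 (zero_mul _)
      (D0 := algebraMap k E b * algebraMap k E c) ?_ (mul_ne_zero hb hc) ?_
    · simp [hb, hq, hq']
    · have e1 : (⟨0, 0, 1, 0⟩ : Qt (up E a) (up E b)) = D4X.mk4 (up E a) (up E b) α 0 0 1 1 := by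
        have n2 : (2 : E) ≠ 0 := NeZero.ne _
        ext
        · simp [D4X.mk4]
        · simp [D4X.mk4]
        · change (1 : E) = (1 + 1) / 2
          rw [one_add_one_eq_two, div_self n2]
        · simp [D4X.mk4]
      rw [e1, mk4_mul hα']
      have e2 : ((up E b : Eˣ) : E) = algebraMap k E b := rfl
      rw [e2]
      congr 1 <;> ring

end main

end Vale.Agent.P011.D4W
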