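import Vale.Agent.P011.D4W.H684.Top
import Vale.Agent.P011.D4Y.H408.PathI

/-!
Block D4W (helper684): the stable singular elements near a given one, for a set of absolute
values, from a step lemma between anti-fixed elements and a chain.
-/

open Filter Topology

namespace Vale.Agent.P011.D4W

open Vale.Agent.P011.MPQ Vale.Agent.P011.D4 Vale.Agent.P011.D4.Oct Vale.Agent.P011.D4X
open Vale.Agent.P011.D4Y

section

variable {k E : Type} [Field k] [Field E] [Algebra k E] {ρ σ ι : E ≃ₐ[k] E}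

/-- A condition on the elements fixed by `σ` and `ι`: a group which contains the norms of the
elements fixed by `ι`, open for the absolute values of `S`. -/
structure GC (σ ι : E ≃ₐ[k] E) (S : Set (AbsoluteValue E ℝ)) (G : E → Prop) : Prop where
  one : G 1
  ne : ∀ {x}, G x → x ≠ 0
  nrm : ∀ {t x : E}, t ≠ 0 → ι t = t → G x → G (t * σ t * x)
  div : ∀ {x y : E}, G x → G y → G (x / y)
  opn : ∀ {X : Type} {F : Filter X} {f : X → E} {x : E}, AE S F f x → G x →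
    ∀ᶠ v in F, σ (f v) = f v → ι (f v) = f v → G (f v)

variable {a b c : kˣ} {L : Type} [Field L] [Algebra L E] {α : E} {q : Lˣ}

theorem zz_contA {S : Set (AbsoluteValue E ℝ)} {F : Filter (OctL E a b c)}
    (hρS : Stb S ρ) {v0 : OctL E a b c}
    (h : AO S F (fun v => v) v0) (p u0 : OctL E a b c) :
    AO S F (fun v => uu p u0 v) (uu p u0 v0) ∧ AO S F (fun v => zz ρ p u0 v) (zz ρ p u0 v0) := by
  have cu : AO S F (fun v => uu p u0 v) (uu p u0 v0) :=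
    (AO.smul ((AO.const S F p).bil h) (AO.const S F u0)).sub
      (AO.smul ((AO.const S F u0).bil h) (AO.const S F p))
  exact ⟨cu, cu.tri hρS h⟩

/-- **Chains which end near a given element**, stable under the semilinear involution. -/
theorem path_nearA {S : Set (AbsoluteValue E ℝ)} (hne : S.Nonempty) {G : E → Prop}
    (hG : GC σ ι S G) (hρS : Stb S ρ) (hσS : Stb S σ) (hιS : Stb S ι)
    (hρ : ∀ m, ρ (ρ (ρ m)) = m)
    (hι : ∀ m, ι (ι m) = m) (hιρ : ∀ m, ι (ρ m) = ρ (ρ (ι m)))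
    (fix : ∀ v w : OctL E a b c, invo ι v = -v → invo ι w = -w →
      σ (bil v (Jm ρ σ α q v) / bil w (Jm ρ σ α q w)) =
        bil v (Jm ρ σ α q v) / bil w (Jm ρ σ α q w) ∧
      ι (bil v (Jm ρ σ α q v) / bil w (Jm ρ σ α q w)) =
        bil v (Jm ρ σ α q v) / bil w (Jm ρ σ α q w)) (r : E)
    {p u0 v0 : OctL E a b c} (hp : Pt ρ p) (hpI : invo ι p = -p) (hu : Pt ρ u0)
    (huI : invo ι u0 = -u0) (hv0I : invo ι v0 = -v0) (hpu : Nb ρ p u0)
    (hpt : ∀ t : E, u0 ≠ t • p) (hpv : bil p v0 ≠ 0)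
    (h0 : bil v0 (Jm ρ σ α q v0) ≠ 0)
    (h1 : G (bil (uu p u0 v0) (Jm ρ σ α q (uu p u0 v0)) / bil v0 (Jm ρ σ α q v0)))
    (h2 : G (bil (zI ρ ι r p u0 v0) (Jm ρ σ α q (zI ρ ι r p u0 v0)) /
      bil v0 (Jm ρ σ α q v0))) :
    ∀ᶠ v in na S v0, Pt ρ v → invo ι v = -v → ∃ u z, Pt ρ u ∧ invo ι u = -u ∧ Pt ρ z ∧
      invo ι z = -z ∧ Nb ρ p u ∧ Nb ρ u z ∧ Nb ρ z v ∧
      G (bil u (Jm ρ σ α q u) / bil v0 (Jm ρ σ α q v0)) ∧
        G (bil z (Jm ρ σ α q z) / bil v0 (Jm ρ σ α q v0)) ∧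
        G (bil v (Jm ρ σ α q v) / bil v0 (Jm ρ σ α q v0)) := by
  have ci := AO_id S v0
  obtain ⟨cu, cz'⟩ := zz_contA hρS ci p u0
  have cz : AO S (na S v0) (fun v => zI ρ ι r p u0 v) (zI ρ ι r p u0 v0) :=
    (AO.smul (AE.const _ _ r) cz').sub ((AO.smul (AE.const _ _ r) cz').invo hιS)
  have cJ : ∀ {f : OctL E a b c → OctL E a b c} {x : OctL E a b c}, AO S (na S v0) f x →
      AE S (na S v0) (fun v => bil (f v) (Jm ρ σ α q (f v)) / bil v0 (Jm ρ σ α q v0))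
        (bil x (Jm ρ σ α q x) / bil v0 (Jm ρ σ α q v0)) := fun hf =>
    (hf.bil (hf.Jm hσS)).div (AE.const _ _ _) h0
  have e1 := hG.opn (cJ cu) h1
  have e2 := hG.opn (cJ cz) h2
  have e3 := hG.opn (cJ ci) (by
    rw [div_self h0]
    exact hG.one)
  have e4 := ((AO.const S (na S v0) p).bil ci).eventually_ne hne hpv
  have hfx : ∀ w : OctL E a b c, invo ι w = -w →
      σ (bil w (Jm ρ σ α q w) / bil v0 (Jm ρ σ α q v0)) =
        bil w (Jm ρ σ α q w) / bil v0 (Jm ρ σ α q v0) ∧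
      ι (bil w (Jm ρ σ α q w) / bil v0 (Jm ρ σ α q v0)) =
        bil w (Jm ρ σ α q w) / bil v0 (Jm ρ σ α q v0) := fun w hw => fix w v0 hw hv0I
  filter_upwards [e1, e2, e3, e4] with v g1 g2 g3 g4 hv hvI
  have hzI : invo ι (zI ρ ι r p u0 v) = -zI ρ ι r p u0 v := invo_zI hι r p u0 v
  have g2' := g2 (hfx _ hzI).1 (hfx _ hzI).2
  have g5 : zI ρ ι r p u0 v ≠ 0 := by
    intro e
    apply hG.ne g2'
    rw [e, bil_zero_left, zero_div]
  obtain ⟨c1, c2, c3, c4, c5, c6, c7⟩ := chainI hρ hι hιρ r hp hu hpI huI hpu hpt hv hvI g4 g5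
  exact ⟨uu p u0 v, zI ρ ι r p u0 v, c1, c2, c3, c4, c5, c6, c7,
    g1 (hfx _ c2).1 (hfx _ c2).2, g2', g3 (hfx _ hvI).1 (hfx _ hvI).2⟩

/-- **The stable singular elements near a given one**, from the step lemma and a chain. -/
theorem near_genA_of [NeZero (2 : E)] {S : Set (AbsoluteValue E ℝ)} (hne : S.Nonempty)
    {G : E → Prop} (hG : GC σ ι S G)
    (hρS : Stb S ρ) (hσS : Stb S σ) (hιS : Stb S ι)
    (hρ : ∀ m, ρ (ρ (ρ m)) = m) (hι : ∀ m, ι (ι m) = m)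
    (hιρ : ∀ m, ι (ρ m) = ρ (ρ (ι m)))
    (fix : ∀ v w : OctL E a b c, invo ι v = -v → invo ι w = -w →
      σ (bil v (Jm ρ σ α q v) / bil w (Jm ρ σ α q w)) =
        bil v (Jm ρ σ α q v) / bil w (Jm ρ σ α q w) ∧
      ι (bil v (Jm ρ σ α q v) / bil w (Jm ρ σ α q w)) =
        bil v (Jm ρ σ α q v) / bil w (Jm ρ σ α q w))
    (smul : ∀ (t : E) (v : OctL E a b c),
      bil (t • v) (Jm ρ σ α q (t • v)) = t * σ t * bil v (Jm ρ σ α q v))
    {P : OctL E a b c → Prop} (hsm : ∀ t : E, t ≠ 0 → ∀ v, P v → P (t • v))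
    (step : ∀ v v' : OctL E a b c, Pt ρ v → invo ι v = -v → Pt ρ v' →
      invo ι v' = -v' → Nb ρ v v' →
      G (bil v' (Jm ρ σ α q v') / bil v (Jm ρ σ α q v)) → P v → P v')
    {p u0 z0 v0 : OctL E a b c} (hp : Pt ρ p) (hpI : invo ι p = -p) (hu : Pt ρ u0)
    (huI : invo ι u0 = -u0) (hpu : Nb ρ p u0) (hpt : ∀ t : E, u0 ≠ t • p)
    (hpv : bil p v0 ≠ 0) (hv0I : invo ι v0 = -v0) (huv : bil u0 v0 = 0) {s : E} (hs : s ≠ 0)
    (hz : tri ρ u0 v0 = s • z0) (hz0I : invo ι z0 = -z0) (h0 : bil v0 (Jm ρ σ α q v0) ≠ 0)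
    (h1 : G (bil p (Jm ρ σ α q p) / bil v0 (Jm ρ σ α q v0)))
    (h2 : G (bil u0 (Jm ρ σ α q u0) / bil v0 (Jm ρ σ α q v0)))
    (h3 : G (bil z0 (Jm ρ σ α q z0) / bil v0 (Jm ρ σ α q v0)))
    (hP : P p) : ∀ᶠ v in na S v0, Pt ρ v → (∃ μ : E, invo ι v = μ • v) → P v := by
  have h2' : (2 : E) ≠ 0 := NeZero.ne _
  have hb : ρ (bil p v0) ≠ 0 := (map_ne_zero ρ).2 hpv
  have hbι : ι (bil p v0) = bil p v0 := by
    rw [← bil_invo, hpI, hv0I, bil_neg_left, bil_comm, bil_neg_left, bil_comm, neg_neg]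
  have hratio : ∀ {x y z : E}, z ≠ 0 → G (x / z) → G (y / z) → G (x / y) := by
    intro x y z hz hx hy
    have e : x / y = (x / z) / (y / z) := by
      rw [div_div_div_cancel_right₀ hz]
    rw [e]
    exact hG.div hx hy
  obtain ⟨r, hr⟩ : ∃ r : E, r = (ρ (bil p v0) * s)⁻¹ := ⟨_, rfl⟩
  have ez : zI ρ ι r p u0 v0 = (2 : E) • z0 := by
    have e3 : r • zz ρ p u0 v0 = z0 := by
      rw [zz_of huv, hz, smul_smul, smul_smul, hr, mul_assoc, inv_mul_cancel₀ (mul_ne_zero hb hs),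
        one_smul]
    rw [zI, e3, hz0I, sub_neg_eq_add, two_smul]
  have e1 : G (bil (uu p u0 v0) (Jm ρ σ α q (uu p u0 v0)) / bil v0 (Jm ρ σ α q v0)) := by
    rw [uu_of huv, smul, mul_div_assoc]
    exact hG.nrm hpv hbι h2
  have e2 : G (bil (zI ρ ι r p u0 v0) (Jm ρ σ α q (zI ρ ι r p u0 v0)) /
      bil v0 (Jm ρ σ α q v0)) := by
    rw [ez, smul, mul_div_assoc]
    exact hG.nrm h2' (map_ofNat ι 2) h3
  have h4 := path_nearA hne hG hρS hσS hιS hρ hι hιρ fix r hp hpI hu huI hv0I hpu hpt hpv h0 e1 e2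
  -- the projection to the eigenspace
  have cf : AO S (na S v0) (fun v => (1 / 2 : E) • (v - invo ι v)) v0 := by
    have c1 := AO.smul (AE.const S (na S v0) (1 / 2 : E))
      ((AO_id S v0).sub ((AO_id S v0).invo hιS))
    have c2 : (1 / 2 : E) • (v0 - invo ι v0) = v0 := by
      rw [hv0I, sub_neg_eq_add, ← two_smul E v0, smul_smul, one_div,
        inv_mul_cancel₀ h2', one_smul]
    rwa [c2] at c1
  have h5 := (tendsto_na_of cf).eventually h4
  have h6 := (cf.bil (cf.Jm (ρ := ρ) (α := α) (q := q) hσS)).eventually_ne hne h0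
  filter_upwards [h5, h6] with v g5 g6 hv hvI
  obtain ⟨μ, hμ⟩ := hvI
  obtain ⟨y, hy⟩ : ∃ y, y = (1 / 2 : E) • (v - invo ι v) := ⟨_, rfl⟩
  have hyv : y = ((1 / 2 : E) * (1 - μ)) • v := by
    rw [hy, hμ, ← smul_smul, sub_smul, one_smul]
  rw [← hy] at g5 g6
  have hy0 : y ≠ 0 := by
    intro h
    apply g6
    rw [h, bil_zero_left]
  have ht : (1 / 2 : E) * (1 - μ) ≠ 0 := by
    intro h
    apply hy0
    rw [hyv, h, zero_smul]
  have hyI : invo ι y = -y := by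
    rw [hy, invo_smul, sub_eq_add_neg, invo_add, invo_neg, invo_invo hι, map_div₀, map_one,
      map_ofNat, ← smul_neg, neg_add, neg_neg, add_comm]
  have hyP : Pt ρ y := by
    rw [hyv]
    exact hv.smul ht
  obtain ⟨u, z, c1, c1I, c2, c2I, c3, c4, c5, c6, c7, c8⟩ := g5 hyP hyI
  have k1 := step p u hp hpI c1 c1I c3 (hratio h0 c6 h1) hP
  have k2 := step u z c1 c1I c2 c2I c4 (hratio h0 c7 c6) k1
  have k3 := step z y c2 c2I hyP hyI c5 (hratio h0 c8 c7) k2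
  have k4 := hsm _ (inv_ne_zero ht) _ k3
  rwa [hyv, smul_smul, inv_mul_cancel₀ ht, one_smul] at k4

end

end Vale.Agent.P011.D4W
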