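import Vale.Agent.P011.D4W.H684.Gc
import Vale.Agent.P011.D4W.Defs
import Vale.Agent.P011.D4Y.H659.Gen2PI
import Vale.Agent.P011.D4Y.H691.FinX

/-!
Block D4W (helper684): openness at the bad real places and at finitely many primes.
-/

open NumberField IsDedekindDomain Topology Filter

set_option linter.unusedSectionVars false

namespace Vale.Agent.P011.D4W

open Vale.Agent.P011.Arith Vale.Agent.P011.MPQ Vale.Agent.P011.D4 Vale.Agent.P011.D4.Oct
  Vale.Agent.P011.E6
open Vale.Agent.P011.D4X Vale.Agent.P011.D4X.H691 Vale.Agent.P011.D4Y Vale.Agent.P011.D4Y.H659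
open Vale.Agent.P011.D4Y.H408 Vale.Agent.P011.D4X.H862

section vb

variable {k L : Type} [Field k] [NumberField k] [Field L] [NumberField L] [Algebra k L]

/-- The primes of `k` below a bad prime of `L`. -/
def VB (k : Type) {L : Type} [Field k] [NumberField k] [Field L] [NumberField L] [Algebra k L]
    (a : kˣ) (q : Lˣ) : Set (HeightOneSpectrum (𝓞 k)) := {v | ∃ w, Bad a q v w}

/-- Positive multipliers have constant signs. -/
theorem pos_PosC {a : kˣ} {κ : Lˣ}
    (h : ∀ w : L →+* ℝ, w (algebraMap k L (a : k)) < 0 → 0 < w (κ : L)) : κ ∈ PosC k L a := by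
  intro w w' hw ha
  have ha' : w' (algebraMap k L (a : k)) < 0 := by
    have h1 := congrArg (fun f : k →+* ℝ => f (a : k)) hw
    change w (algebraMap k L (a : k)) = w' (algebraMap k L (a : k)) at h1
    rwa [← h1]
  exact mul_pos (h w ha) (h w' ha')

theorem VB_finite (a : kˣ) (q : Lˣ) : (VB k a q).Finite := by
  choose below hbelow using fun w : HeightOneSpectrum (𝓞 L) => exists_below (F := k) w
  refine ((ram_finite (up L a) q).image below).subset ?_
  rintro v ⟨w, h1, h2, -⟩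
  exact ⟨w, h2, below_unique (hbelow w) h1⟩

end vb

section nrm

variable {k L E : Type} [Field k] [NumberField k] [Field L] [NumberField L] [Field E]
  [NumberField E] [Algebra k L] [Algebra k E] [Algebra L E] [IsScalarTower k L E]
  {ρ σ ι : E ≃ₐ[k] E} {α : E} {a b c : kˣ} {q : Lˣ} (H : HyI ρ σ ι α a b c q)

include H

/-- The elements of `L` which satisfy the condition at the primes are local norms. -/
theorem NF_of_Gfin {V : Set (HeightOneSpectrum (𝓞 k))} {κ : Lˣ}
    (h : Gfin L ρ σ ι V (ρ (algebraMap L E (κ : L)))) :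
    ∀ w ∈ ov L V, κ ∈ NF (up L a) ⊔ LS (w.valuation L) := by
  obtain ⟨t, y, ht, htι, hx, hy⟩ := h
  have hα0 : α ≠ 0 := al_ne (a := up E a) H.α2
  have h2 : (2 : E) ≠ 0 := two_ne_zero
  have hσt : ι (σ t) = σ t := by rw [← H.σι, htι]
  obtain ⟨r1, hr1⟩ := fix_rho H (e := (t + σ t) / 2)
    (by rw [map_div₀, map_add, H.σ2, map_ofNat, add_comm])
    (by rw [map_div₀, map_add, hσt, htι, map_ofNat])
  obtain ⟨r2, hr2⟩ := fix_rho H (e := (t - σ t) / (2 * α))
    (by
      rw [map_div₀, map_sub, map_mul, H.σ2, map_ofNat, H.σα]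
      field_simp
      ring)
    (by rw [map_div₀, map_sub, map_mul, hσt, htι, map_ofNat, H.ια])
  have e1 : (κ : L) = (r1 ^ 2 - algebraMap k L a * r2 ^ 2) * y := by
    apply (algebraMap L E).injective
    apply ρ.injective
    rw [hx]
    simp only [map_mul, map_sub, map_pow]
    rw [hr1, hr2, ← IsScalarTower.algebraMap_apply, ρ.commutes, ← H.α2]
    field_simp
    ring
  have hne : r1 ^ 2 - algebraMap k L a * r2 ^ 2 ≠ 0 := by
    intro h0
    rw [h0, zero_mul] at e1
    exact κ.ne_zero e1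
  intro w hw
  have e2 : κ = Units.mk0 _ hne * y := by
    apply Units.ext
    rw [Units.val_mul, Units.val_mk0]
    exact e1
  rw [e2]
  refine mul_mem (Subgroup.mem_sup_left ⟨r1, r2, rfl⟩) (Subgroup.mem_sup_right ⟨1, ?_⟩)
  rw [Units.val_one, one_pow, div_one]
  exact hy w hw

variable [NeZero (2 : E)]

/-- The values of the form on the anti-fixed vectors. -/
theorem ratio_fix (v w : OctL E a b c) (hv : invo ι v = -v) (hw : invo ι w = -w) :
    σ (bil v (Jm ρ σ α q v) / bil w (Jm ρ σ α q w)) =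
        bil v (Jm ρ σ α q v) / bil w (Jm ρ σ α q w) ∧
      ι (bil v (Jm ρ σ α q v) / bil w (Jm ρ σ α q w)) =
        bil v (Jm ρ σ α q v) / bil w (Jm ρ σ α q w) := by
  refine ⟨by rw [map_div₀, bJ_fixI H, bJ_fixI H], ?_⟩
  have h1 : ∀ v : OctL E a b c, invo ι v = -v → ι (bil v (Jm ρ σ α q v)) =
      ρ (ρ (algebraMap L E (q : L))) / algebraMap L E (q : L) * bil v (Jm ρ σ α q v) := by
    intro v hv
    have hv' : Im ι v = -v := hv
    have h3 : Jm ρ σ α q (-v) = -Jm ρ σ α q v := by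
      rw [← neg_one_smul E v, H.Jm_smul, map_neg, map_one, neg_one_smul]
    rw [← D4Y.bil_Im, D4Y.HyI.Im_Jm' H, hv', h3, bil_neg_left, bil_smul_right, bil_comm v,
      bil_neg_left, bil_comm _ v]
    ring
  rw [map_div₀, h1 v hv, h1 w hw, mul_div_mul_left]
  refine div_ne_zero ?_ ?_
  · exact (map_ne_zero _).2 ((map_ne_zero _).2 ((map_ne_zero _).2 q.ne_zero))
  · exact (map_ne_zero _).2 q.ne_zero

/-- **The stable singular elements near the standard one**, from a step lemma. -/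
theorem near_genG {V : Set (HeightOneSpectrum (𝓞 k))} (hV : V.Finite) {P : OctL E a b c → Prop}
    (hsm : ∀ t : E, t ≠ 0 → ∀ v, P v → P (t • v))
    (hact : ∀ (z : ATI ρ σ ι α a b c q) (b' c' : kˣ) (j l : Oct a b c)
      (h : Trip a b' c' gi j l), z ∈ stabI ρ σ ι α q h → IsKapI ρ z.1 (1 : Lˣ) →
        ∀ v, P v → P (z.1 v))
    (step : ∀ v v' : OctL E a b c, Pt ρ v → invo ι v = -v → Pt ρ v' →
      invo ι v' = -v' → Nb ρ v v' →
      GG ρ σ ι q V (bil v' (Jm ρ σ α q v') / bil v (Jm ρ σ α q v)) → P v → P v')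
    (h0 : P (ep α * oup E (gl : Oct a b c))) :
    ∀ᶠ v in na (SV E V) (ep α * oup E (gl : Oct a b c)), Pt ρ v →
      (∃ μ : E, invo ι v = μ • v) → P v := by
  have : NeZero (2 : k) := ⟨two_ne_zero⟩
  obtain ⟨p, u0, z0, c1, c1I, c2, c2I, c3I, c3, c4, c5, c6, ⟨s, hs, c7⟩, e1, e2, e3,
    y1, y2, y3, b', c', j, l, h, m1, m2, m3, k1, k2, k3, hp⟩ := base_dataI (c := c) H
  have hh0 : hh ρ σ α q (vl α a b c) ≠ 0 := hh_vlI_ne H
  have hone : ∀ {x : OctL E a b c}, hh ρ σ α q x = hh ρ σ α q (vl α a b c) →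
      GG ρ σ ι q V (bil x (Jm ρ σ α q x) / bil (vl α a b c) (Jm ρ σ α q (vl α a b c))) := by
    intro x hx
    change GG ρ σ ι q V (hh ρ σ α q x / hh ρ σ α q (vl α a b c))
    rw [hx, div_self hh0]
    exact (GG_gc H hV).one
  have hstd : Trip a b c (gi : Oct a b c) gj gl := trip_std
  rw [← vl_eq] at h0 ⊢
  have hP : P p := by
    rw [hp]
    refine hact y1 b c gj gl hstd ?_ k1 _ (hact y2 b' c' j l h m2 k2 _
      (hact y3 b c gj gl hstd ?_ k3 _ h0))
    · rw [stabI_std]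
      exact m1
    · rw [stabI_std]
      exact m3
  exact near_genA_of (SV_nonempty V) (GG_gc H hV) (Stb_SV V ρ) (Stb_SV V σ) (Stb_SV V ι) H.ρ3
    H.ι2 H.ιρ (ratio_fix H) (bJ_smulI H) hsm step c1 c1I c2 c2I c3 c4 c5 (Im_vl H.ια) c6 hs c7 c3I
    hh0 (hone e1) (hone e2) (hone e3) hP

/-- The positive classes which are norms at the bad primes. -/
def P0 (k : Type) {L : Type} [Field k] [NumberField k] [Field L] [NumberField L] [Algebra k L]
    (a : kˣ) (q : Lˣ) : Subgroup Lˣ := PosC k L a ⊓ NV k a q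

/-- **The planes of the stable singular vectors near the standard one.** -/
theorem near_PPI : ∀ᶠ v in na (SV E (VB k a q)) (ep α * oup E (gl : Oct a b c)), Pt ρ v →
    (∃ μ : E, invo ι v = μ • v) → PPI (P0 k a q) ρ σ ι α q v := by
  have hP : ∀ κ : Lˣ, (∀ w : L →+* ℝ, w (algebraMap k L a) < 0 → 0 < w (κ : L)) →
      Gfin L ρ σ ι (VB k a q) (ρ (algebraMap L E (κ : L))) → κ ∈ P0 k a q := by
    intro κ h1 h2
    exact ⟨pos_PosC h1, fun v w hb => NF_of_Gfin H h2 w ⟨v, ⟨w, hb⟩, hb.1⟩⟩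
  exact near_genG H (VB_finite a q) (P := PPI (P0 k a q) ρ σ ι α q) (fun t ht v => PPI_smul ht)
    (fun z b' c' j l h hz hκ v hv => act_near z b' c' j l h hz hκ v hv)
    (fun v v' hv hvI hv' hvI' hn hg hp => step_nearG H hP (fun ht hι h => Gfin_nrm ht hι h)
      v v' hv hvI hv' hvI' hn hg.1 hg.2 hp) (base_PPG H hP Gfin_one)

theorem pt_std : Pt ρ (ep α * oup E (gl : Oct a b c) : OctL E a b c) := by
  have : NeZero (2 : k) := ⟨two_ne_zero⟩
  rw [← D4X.H862.vl_eq]
  exact H408.pt_vlI H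

theorem Im_std : invo ι (ep α * oup E (gl : Oct a b c) : OctL E a b c) =
    (-1 : E) • (ep α * oup E (gl : Oct a b c)) := by
  rw [← D4X.H862.vl_eq, neg_one_smul]
  exact H408.Im_vl H.ια

theorem PPI_std : PPI (P0 k a q) ρ σ ι α q (ep α * oup E (gl : Oct a b c) : OctL E a b c) := by
  obtain ⟨ε, hε, h1⟩ := exists_epa_map (SV_finite (VB_finite a q)) (near_PPI (c := c) H)
  exact h1 (fun x => x) (fun p hp x => by
    have h2 : oa p (x - x) = 0 := by
      rw [sub_self]
      apply Finset.sum_eq_zero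
      intro i _
      have : co8 (0 : OctL E a b c) i = 0 := by fin_cases i <;> rfl
      rw [this, map_zero]
    rw [h2]
    exact mul_nonneg hε.le (oa_nonneg p x)) (pt_std H) ⟨-1, Im_std H⟩

/-- The elements which move the standard vector to a vector of a good plane. -/
theorem mem_stabs_of_PPI {g : ATI ρ σ ι α a b c q} (hg : kapI g ∈ P0 k a q)
    (h : PPI (P0 k a q) ρ σ ι α q (g.1 (ep α * oup E (gl : Oct a b c)))) :
    g ∈ stabsPI (P0 k a q) ρ σ ι α a b c q :=
  mem_stabsP_of_PP (fun _ _ h1 h2 => gen2PI H h1 h2) (PPI_std H) hg h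

/-- The congruence of the centralisers, for the subgroup they generate. -/
theorem stabs_le
    (hle : ∀ {b' c' : kˣ} {j l : Oct a b c} (h : Trip a b' c' gi j l) {z : ATI ρ σ ι α a b c q},
      z ∈ stabI ρ σ ι α q h → kapI z ∈ PosC k L a → kapI z ∈ NV k a q →
        z ∈ H.NA ⊔ stab0I ρ σ ι α a b c q) :
    stabsPI (P0 k a q) ρ σ ι α a b c q ≤ H.NA ⊔ stab0I ρ σ ι α a b c q := by
  rw [stabsPI, Subgroup.closure_le]
  rintro z ⟨hP, b', c', j, l, h, hz⟩
  exact hle h hz hP.1 hP.2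

/-- **Step O.** The elements of the adjoint group which move the standard vector to a vector close
to its line lie in `NA ⊔ stab0I`, if their multiplier is positive and is a norm at the bad
primes. -/
theorem mem_of_near
    (hle : ∀ {b' c' : kˣ} {j l : Oct a b c} (h : Trip a b' c' gi j l) {z : ATI ρ σ ι α a b c q},
      z ∈ stabI ρ σ ι α q h → kapI z ∈ PosC k L a → kapI z ∈ NV k a q →
        z ∈ H.NA ⊔ stab0I ρ σ ι α a b c q)
    {X : Type} {F : Filter X} {g : X → ATI ρ σ ι α a b c q} {t : X → E}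
    (h : AO (SV E (VB k a q)) F (fun n => t n • (g n).1 (ep α * oup E (gl : Oct a b c)))
      (ep α * oup E (gl : Oct a b c))) :
    ∀ᶠ n in F, kapI (g n) ∈ P0 k a q → g n ∈ H.NA ⊔ stab0I ρ σ ι α a b c q := by
  have hne : (ep α * oup E (gl : Oct a b c) : OctL E a b c) ≠ 0 := (pt_std H).1
  have h1 := (tendsto_na_of h).eventually (near_PPI (c := c) H)
  have h2 : ∀ᶠ n in F, t n ≠ 0 := by
    obtain ⟨p, hp⟩ := SV_nonempty (E := E) (VB k a q)
    have h3 := ((h.2.1 : AE _ F _ _).tendsto hp).eventually_ne ((p.ne_zero_iff).mpr (by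
      rw [← D4X.H862.vl_eq]
      change ((1 : E) + 0) / 2 ≠ 0
      rw [add_zero]
      exact one_div_ne_zero (NeZero.ne 2)))
    filter_upwards [h3] with n hn h0
    rw [h0, zero_smul] at hn
    exact hn (map_zero p)
  filter_upwards [h1, h2] with n g1 g2 hκ
  have h3 : Pt ρ (t n • (g n).1 (ep α * oup E (gl : Oct a b c))) :=
    (pt_ATI (g n) (pt_std H)).smul g2
  have h4 : invo ι (t n • (g n).1 (ep α * oup E (gl : Oct a b c))) =
      (-(ι (t n) / t n)) • (t n • (g n).1 (ep α * oup E (gl : Oct a b c))) := by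
    have h5 : (g n).1 (invo ι (ep α * oup E (gl : Oct a b c))) =
      invo ι ((g n).1 (ep α * oup E (gl : Oct a b c))) := (g n).2.2.2 _
    rw [invo_smul, ← h5, Im_std H, map_smul, smul_smul, smul_smul]
    congr 1
    field_simp
  exact stabs_le H hle (mem_stabs_of_PPI H hκ (PPI_of_smul g2 (g1 h3 ⟨_, h4⟩)))

/-- The elements close to one at the infinite places and at the bad primes lie in the finite
residual. -/
theorem stepO_of
    (hle : ∀ {b' c' : kˣ} {j l : Oct a b c} (h : Trip a b' c' gi j l) {z : ATI ρ σ ι α a b c q},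
      z ∈ stabI ρ σ ι α q h → kapI z ∈ PosC k L a → kapI z ∈ NV k a q →
        z ∈ H.NA ⊔ stab0I ρ σ ι α a b c q)
    (hstabN : ∀ {z : ATI ρ σ ι α a b c q}, z ∈ stab0I ρ σ ι α a b c q → kapI z ∈ SqL k L →
      IsNI ρ σ ι α a b c q z) :
    ∃ ε : ℝ, 0 < ε ∧ ∀ g : OctL E a b c ≃ₗ[E] OctL E a b c, g ∈ GTI ρ σ ι α a b c q →
      (∀ p ∈ SV E (VB k a q), ∀ x, oa p (g x - x) ≤ ε * oa p x) → g ∈ RsI ρ σ ι α a b c q := by
  obtain ⟨ε, hε, h1⟩ := exists_epa_map (SV_finite (VB_finite a q)) (near_PPI (c := c) H)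
  refine ⟨ε, hε, fun g hg hn => ?_⟩
  have hκ : kapI (⟨g, GTI_le_ATI hg⟩ : ATI ρ σ ι α a b c q) ∈ P0 k a q := by
    rw [kapI_of_GTI hg]
    exact Subgroup.one_mem _
  have h3 := mem_stabs_of_PPI H hκ (h1 (fun x => g x) hn
    (pt_ATI (⟨g, GTI_le_ATI hg⟩ : ATI ρ σ ι α a b c q) (pt_std H)) ⟨-1, by
      have h4 : g (invo ι (ep α * oup E (gl : Oct a b c))) =
        invo ι (g (ep α * oup E (gl : Oct a b c))) := hg.2.2 _
      rw [← h4, Im_std H, map_smul]⟩)
  refine mem_of_isNI H g hg ?_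
  obtain ⟨n, hn1, s, hs, he⟩ := Subgroup.mem_sup_of_normal_left.1 (stabs_le H hle h3)
  have hN : kapI n ∈ SqL k L := H.kap_mem_of_NA hn1
  have h5 : kapI (n * s) ∈ SqL k L := by
    rw [he, kapI_of_GTI hg]
    exact Subgroup.one_mem _
  rw [kapI_mul] at h5
  have h6 : kapI s ∈ SqL k L := (Subgroup.mul_mem_cancel_left _ hN).1 h5
  have h7 := H.NA.mul_mem hn1 (hstabN hs h6)
  rw [he] at h7
  exact h7

end nrm

end Vale.Agent.P011.D4W
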