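import Vale.Agent.P011.D4X.H408.Top
import Mathlib.Algebra.Order.AbsoluteValue.Basic

/-!
Block D4W (helper684): limits with respect to a set of absolute values.
-/

open Filter Topology

namespace Vale.Agent.P011.D4W

open Vale.Agent.P011.MPQ Vale.Agent.P011.D4 Vale.Agent.P011.D4.Oct Vale.Agent.P011.D4X

section elt

variable {E X : Type} [Field E] {S : Set (AbsoluteValue E ℝ)} {F : Filter X} {f g : X → E}
  {x y : E}

/-- The difference tends to zero for the absolute values of `S`. -/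
def AE (S : Set (AbsoluteValue E ℝ)) (F : Filter X) (f : X → E) (x : E) : Prop :=
  ∀ p ∈ S, Tendsto (fun v => p (f v - x)) F (𝓝 0)

theorem AE.const (S : Set (AbsoluteValue E ℝ)) (F : Filter X) (x : E) :
    AE S F (fun _ => x) x := by
  intro p _
  simp only [sub_self, map_zero]
  exact tendsto_const_nhds

theorem AE.add (hf : AE S F f x) (hg : AE S F g y) : AE S F (fun v => f v + g v) (x + y) := by
  intro p hp
  refine squeeze_zero (fun v => p.nonneg _) (fun v => ?_) (by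
    have h := (hf p hp).add (hg p hp)
    rwa [add_zero] at h)
  have e : f v + g v - (x + y) = (f v - x) + (g v - y) := by ring
  rw [e]
  exact p.add_le _ _

theorem AE.neg (hf : AE S F f x) : AE S F (fun v => -f v) (-x) := by
  intro p hp
  refine (hf p hp).congr fun v => ?_
  have e : -f v - -x = -(f v - x) := by ring
  rw [e, map_neg_eq_map]

theorem AE.sub (hf : AE S F f x) (hg : AE S F g y) : AE S F (fun v => f v - g v) (x - y) := by
  simp only [sub_eq_add_neg]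
  exact hf.add hg.neg

theorem AE.mul (hf : AE S F f x) (hg : AE S F g y) : AE S F (fun v => f v * g v) (x * y) := by
  intro p hp
  have h1 := hf p hp
  have h2 := hg p hp
  refine squeeze_zero (fun v => p.nonneg _) (fun v => ?_)
    (g := fun v => p (f v - x) * p (g v - y) + p (f v - x) * p y + p x * p (g v - y)) (by
    have h := ((h1.mul h2).add (h1.mul_const (p y))).add (h2.const_mul (p x))
    rwa [mul_zero, zero_mul, mul_zero, add_zero, add_zero] at h)
  have e : f v * g v - x * y = (f v - x) * (g v - y) + (f v - x) * y + x * (g v - y) := by ring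
  rw [e, ← map_mul, ← map_mul, ← map_mul]
  exact (p.add_le _ _).trans (add_le_add_left (p.add_le _ _) _)

theorem AE.congr (hf : AE S F f x) (h : ∀ v, f v = g v) (hx : x = y) : AE S F g y := by
  have e : f = g := funext h
  rw [← e, ← hx]
  exact hf

theorem AE.pow (hf : AE S F f x) (n : ℕ) : AE S F (fun v => f v ^ n) (x ^ n) := by
  induction n with
  | zero => exact (AE.const S F 1).congr (fun v => (pow_zero _).symm) (pow_zero _).symm
  | succ n ih => exact (ih.mul hf).congr (fun v => (pow_succ _ _).symm) (pow_succ _ _).symm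

theorem AE.tendsto (hf : AE S F f x) {p : AbsoluteValue E ℝ} (hp : p ∈ S) :
    Tendsto (fun v => p (f v)) F (𝓝 (p x)) := by
  rw [tendsto_iff_norm_sub_tendsto_zero]
  refine squeeze_zero (fun v => norm_nonneg _) (fun v => ?_) (hf p hp)
  rw [Real.norm_eq_abs]
  exact p.abs_abv_sub_le_abv_sub _ _

theorem AE.inv (hf : AE S F f x) (hx : x ≠ 0) : AE S F (fun v => (f v)⁻¹) x⁻¹ := by
  intro p hp
  have h0 : p x ≠ 0 := (p.ne_zero_iff).mpr hx
  have h1 := hf.tendsto hp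
  have h2 : Tendsto (fun v => p (f v - x) / (p (f v) * p x)) F (𝓝 0) := by
    have h := (hf p hp).div (h1.mul_const (p x)) (mul_ne_zero h0 h0)
    rwa [zero_div] at h
  refine h2.congr' ?_
  filter_upwards [h1.eventually_ne h0] with v hv
  have hfv : f v ≠ 0 := (p.ne_zero_iff).mp hv
  have e : (f v)⁻¹ - x⁻¹ = -(f v - x) / (f v * x) := by
    field_simp
    ring
  rw [e, map_div₀, map_neg_eq_map, map_mul]

theorem AE.div (hf : AE S F f x) (hg : AE S F g y) (hy : y ≠ 0) :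
    AE S F (fun v => f v / g v) (x / y) := by
  simp only [div_eq_mul_inv]
  exact hf.mul (hg.inv hy)

/-- The map is continuous for the absolute values of the set. -/
def Stb (S : Set (AbsoluteValue E ℝ)) (r : E → E) : Prop :=
  ∀ p ∈ S, ∃ p' ∈ S, ∀ ε : ℝ, 0 < ε → ∃ δ : ℝ, 0 < δ ∧ ∀ z, p' z < δ → p (r z) < ε

theorem AE.aut {k : Type} [Field k] [Algebra k E] {ρ : E ≃ₐ[k] E} (hρ : Stb S ρ)
    (hf : AE S F f x) : AE S F (fun v => ρ (f v)) (ρ x) := by
  intro p hp
  obtain ⟨p', hp', h⟩ := hρ p hp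
  rw [Metric.tendsto_nhds]
  intro ε hε
  obtain ⟨δ, hδ, h1⟩ := h ε hε
  filter_upwards [(hf p' hp').eventually (gt_mem_nhds hδ)] with v hv
  rw [Real.dist_eq, sub_zero, abs_of_nonneg (p.nonneg _), ← map_sub]
  exact h1 _ hv

theorem AE.eventually_lt (hf : AE S F f x) {p : AbsoluteValue E ℝ} (hp : p ∈ S) {ε : ℝ}
    (hε : 0 < ε) : ∀ᶠ v in F, p (f v - x) < ε :=
  (hf p hp).eventually (gt_mem_nhds hε)

theorem AE.eventually_ne (hne : S.Nonempty) (hf : AE S F f x) (h0 : x ≠ 0) :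
    ∀ᶠ v in F, f v ≠ 0 := by
  obtain ⟨p, hp⟩ := hne
  filter_upwards [(hf.tendsto hp).eventually_ne ((p.ne_zero_iff).mpr h0)] with v hv
  exact (p.ne_zero_iff).mp hv

end elt

section quat

variable {E X : Type} [Field E] {S : Set (AbsoluteValue E ℝ)} {F : Filter X} {a b : Eˣ}
  {f g : X → Qt a b} {x y : Qt a b} {t : X → E} {s : E}

/-- The four coordinates converge. -/
def AQ (S : Set (AbsoluteValue E ℝ)) (F : Filter X) (f : X → Qt a b) (x : Qt a b) : Prop :=
  AE S F (fun v => (f v).re) x.re ∧ AE S F (fun v => (f v).imI) x.imI ∧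
    AE S F (fun v => (f v).imJ) x.imJ ∧ AE S F (fun v => (f v).imK) x.imK

theorem AQ.const (S : Set (AbsoluteValue E ℝ)) (F : Filter X) (x : Qt a b) :
    AQ S F (fun _ => x) x :=
  ⟨.const _ _ _, .const _ _ _, .const _ _ _, .const _ _ _⟩

theorem AQ.add (hf : AQ S F f x) (hg : AQ S F g y) : AQ S F (fun v => f v + g v) (x + y) :=
  ⟨(hf.1.add hg.1), (hf.2.1.add hg.2.1), (hf.2.2.1.add hg.2.2.1), (hf.2.2.2.add hg.2.2.2)⟩

theorem AQ.sub (hf : AQ S F f x) (hg : AQ S F g y) : AQ S F (fun v => f v - g v) (x - y) :=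
  ⟨(hf.1.sub hg.1), (hf.2.1.sub hg.2.1), (hf.2.2.1.sub hg.2.2.1), (hf.2.2.2.sub hg.2.2.2)⟩

theorem AQ.neg (hf : AQ S F f x) : AQ S F (fun v => -f v) (-x) :=
  ⟨hf.1.neg, hf.2.1.neg, hf.2.2.1.neg, hf.2.2.2.neg⟩

theorem AQ.smul (ht : AE S F t s) (hf : AQ S F f x) : AQ S F (fun v => t v • f v) (s • x) :=
  ⟨ht.mul hf.1, ht.mul hf.2.1, ht.mul hf.2.2.1, ht.mul hf.2.2.2⟩

theorem AQ.star (hf : AQ S F f x) : AQ S F (fun v => star (f v)) (star x) := by
  refine ⟨hf.1.congr (fun v => ?_) ?_, hf.2.1.neg.congr (fun v => ?_) ?_,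
    hf.2.2.1.neg.congr (fun v => ?_) ?_, hf.2.2.2.neg.congr (fun v => ?_) ?_⟩ <;> simp

theorem AQ.mul (hf : AQ S F f x) (hg : AQ S F g y) : AQ S F (fun v => f v * g v) (x * y) := by
  obtain ⟨f1, f2, f3, f4⟩ := hf
  obtain ⟨g1, g2, g3, g4⟩ := hg
  have ha := AE.const S F (a : E)
  have hb := AE.const S F (b : E)
  refine ⟨((((f1.mul g1).add ((ha.mul f2).mul g2)).add ((hb.mul f3).mul g3)).sub
      (((ha.mul hb).mul f4).mul g4)).congr (fun v => ?_) ?_,
    ((((f1.mul g2).add (f2.mul g1)).sub ((hb.mul f3).mul g4)).add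
      ((hb.mul f4).mul g3)).congr (fun v => ?_) ?_,
    ((((f1.mul g3).add ((ha.mul f2).mul g4)).add (f3.mul g1)).sub
      ((ha.mul f4).mul g2)).congr (fun v => ?_) ?_,
    ((((f1.mul g4).add (f2.mul g3)).sub (f3.mul g2)).add (f4.mul g1)).congr (fun v => ?_) ?_⟩ <;>
    simp

theorem AQ.nrd (hf : AQ S F f x) : AE S F (fun v => nrd (f v)) (nrd x) := by
  obtain ⟨f1, f2, f3, f4⟩ := hf
  have ha := AE.const S F (a : E)
  have hb := AE.const S F (b : E)
  exact ((((f1.pow 2).sub (ha.mul (f2.pow 2))).sub (hb.mul (f3.pow 2))).add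
    ((ha.mul hb).mul (f4.pow 2))).congr (fun v => by simp only [MPQ.nrd]) (by
      simp only [MPQ.nrd])

end quat

section oct

variable {E X : Type} [Field E] {S : Set (AbsoluteValue E ℝ)} {F : Filter X} {a b c : Eˣ}
  {f g : X → Oct a b c} {x y : Oct a b c} {t : X → E} {s : E}

/-- The eight coordinates converge. -/
def AO (S : Set (AbsoluteValue E ℝ)) (F : Filter X) (f : X → Oct a b c) (x : Oct a b c) : Prop :=
  AQ S F (fun v => (f v).fst) x.fst ∧ AQ S F (fun v => (f v).snd) x.snd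

theorem AO.const (S : Set (AbsoluteValue E ℝ)) (F : Filter X) (x : Oct a b c) :
    AO S F (fun _ => x) x :=
  ⟨.const _ _ _, .const _ _ _⟩

theorem AO.add (hf : AO S F f x) (hg : AO S F g y) : AO S F (fun v => f v + g v) (x + y) :=
  ⟨hf.1.add hg.1, hf.2.add hg.2⟩

theorem AO.sub (hf : AO S F f x) (hg : AO S F g y) : AO S F (fun v => f v - g v) (x - y) :=
  ⟨hf.1.sub hg.1, hf.2.sub hg.2⟩

theorem AO.neg (hf : AO S F f x) : AO S F (fun v => -f v) (-x) := ⟨hf.1.neg, hf.2.neg⟩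

theorem AO.smul (ht : AE S F t s) (hf : AO S F f x) : AO S F (fun v => t v • f v) (s • x) :=
  ⟨hf.1.smul ht, hf.2.smul ht⟩

theorem AO.star (hf : AO S F f x) : AO S F (fun v => star (f v)) (star x) :=
  ⟨hf.1.star, hf.2.neg⟩

theorem AO.mul (hf : AO S F f x) (hg : AO S F g y) : AO S F (fun v => f v * g v) (x * y) :=
  ⟨(hf.1.mul hg.1).add ((hg.2.star.mul hf.2).smul (AE.const S F (c : E))),
    (hg.2.mul hf.1).add (hf.2.mul hg.1.star)⟩

theorem AO.norm (hf : AO S F f x) : AE S F (fun v => Oct.norm (f v)) (Oct.norm x) :=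
  hf.1.nrd.sub ((AE.const S F (c : E)).mul hf.2.nrd)

theorem AO.bil (hf : AO S F f x) (hg : AO S F g y) :
    AE S F (fun v => Oct.bil (f v) (g v)) (Oct.bil x y) :=
  ((hf.add hg).norm.sub hf.norm).sub hg.norm

end oct

section aut

variable {k E X : Type} [Field k] [Field E] [Algebra k E] {S : Set (AbsoluteValue E ℝ)}
  {F : Filter X} {a b c : kˣ} {ρ σ ι : E ≃ₐ[k] E}

theorem AQ.qmap (hρ : Stb S ρ) {f : X → Qt (up E a) (up E b)}
    {x : Qt (up E a) (up E b)} (hf : AQ S F f x) :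
    AQ S F (fun v => qmap ρ (f v)) (qmap ρ x) :=
  ⟨hf.1.aut hρ, hf.2.1.aut hρ, hf.2.2.1.aut hρ, hf.2.2.2.aut hρ⟩

variable {f g : X → OctL E a b c} {x y : OctL E a b c}

theorem AO.omap (hρ : Stb S ρ) (hf : AO S F f x) :
    AO S F (fun v => omap ρ (f v)) (omap ρ x) :=
  ⟨hf.1.qmap hρ, hf.2.qmap hρ⟩

theorem AO.invo (hι : Stb S ι) (hf : AO S F f x) :
    AO S F (fun v => invo ι (f v)) (invo ι x) :=
  hf.star.omap hι

theorem AO.tri (hρ : Stb S ρ) (hf : AO S F f x) (hg : AO S F g y) :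
    AO S F (fun v => tri ρ (f v) (g v)) (tri ρ x y) :=
  (hf.star.omap hρ).mul ((hg.star.omap hρ).omap hρ)

variable {L : Type} [Field L] [Algebra k L] [Algebra L E] [IsScalarTower k L E] {α : E} {q : Lˣ}

omit [Algebra k L] [IsScalarTower k L E] in
theorem AO.Jm (hσ : Stb S σ) (hf : AO S F f x) :
    AO S F (fun v => Jm ρ σ α q (f v)) (Jm ρ σ α q x) :=
  ⟨((AQ.const S F _).mul (hf.1.qmap hσ)).mul (AQ.const S F _),
    (hf.2.qmap hσ).mul (AQ.const S F _)⟩

end aut

/-! Neighbourhoods. -/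

section nh

variable {E : Type} [Field E] {a b c : Eˣ}

/-- The sum of the absolute values of the coordinates. -/
noncomputable def oa (p : AbsoluteValue E ℝ) (x : Oct a b c) : ℝ := ∑ i, p (co8 x i)

theorem oa_nonneg (p : AbsoluteValue E ℝ) (x : Oct a b c) : 0 ≤ oa p x :=
  Finset.sum_nonneg fun _ _ => p.nonneg _

theorem oa_le (p : AbsoluteValue E ℝ) (x : Oct a b c) (i : Fin 8) : p (co8 x i) ≤ oa p x :=
  Finset.single_le_sum (f := fun i => p (co8 x i)) (fun _ _ => p.nonneg _)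
    (Finset.mem_univ i)

/-- The neighbourhoods of an element with respect to the absolute values of `S`. -/
noncomputable def na (S : Set (AbsoluteValue E ℝ)) (v0 : Oct a b c) : Filter (Oct a b c) :=
  comap (fun v (r : S × Fin 8) => r.1.1 (co8 v r.2 - co8 v0 r.2)) (𝓝 fun _ => 0)

theorem tendsto_na {S : Set (AbsoluteValue E ℝ)} (v0 : Oct a b c) {p : AbsoluteValue E ℝ}
    (hp : p ∈ S) (i : Fin 8) :
    Tendsto (fun v => p (co8 v i - co8 v0 i)) (na S v0) (𝓝 0) := by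
  have h1 : Tendsto (fun (v : Oct a b c) (r : S × Fin 8) => r.1.1 (co8 v r.2 - co8 v0 r.2))
      (na S v0) (𝓝 fun _ => 0) := tendsto_comap
  exact (tendsto_pi_nhds.1 h1) (⟨p, hp⟩, i)

theorem AO_id (S : Set (AbsoluteValue E ℝ)) (v0 : Oct a b c) : AO S (na S v0) (fun v => v) v0 :=
  ⟨⟨fun _ hp => tendsto_na v0 hp 0, fun _ hp => tendsto_na v0 hp 1,
    fun _ hp => tendsto_na v0 hp 2, fun _ hp => tendsto_na v0 hp 3⟩,
    ⟨fun _ hp => tendsto_na v0 hp 4, fun _ hp => tendsto_na v0 hp 5,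
    fun _ hp => tendsto_na v0 hp 6, fun _ hp => tendsto_na v0 hp 7⟩⟩

theorem tendsto_na_of {S : Set (AbsoluteValue E ℝ)} {X : Type} {F : Filter X}
    {f : X → Oct a b c} {x : Oct a b c} (h : AO S F f x) : Tendsto f F (na S x) := by
  rw [na, tendsto_comap_iff, tendsto_pi_nhds]
  rintro ⟨⟨p, hp⟩, i⟩
  obtain ⟨⟨h1, h2, h3, h4⟩, h5, h6, h7, h8⟩ := h
  fin_cases i
  · exact h1 p hp
  · exact h2 p hp
  · exact h3 p hp
  · exact h4 p hp
  · exact h5 p hp
  · exact h6 p hp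
  · exact h7 p hp
  · exact h8 p hp

/-- Neighbourhoods in terms of absolute values. -/
theorem exists_epa {S : Set (AbsoluteValue E ℝ)} (hS : S.Finite) {v0 : Oct a b c}
    {P : Oct a b c → Prop} (h : ∀ᶠ v in na S v0, P v) :
    ∃ ε : ℝ, 0 < ε ∧ ∀ v, (∀ p ∈ S, oa p (v - v0) ≤ ε) → P v := by
  have := hS.fintype
  obtain ⟨t, ht, h1⟩ := mem_comap.1 h
  obtain ⟨ε, hε, h2⟩ := Metric.mem_nhds_iff.1 ht
  refine ⟨ε / 2, half_pos hε, fun v hv => h1 (h2 ?_)⟩
  rw [Metric.mem_ball, dist_pi_lt_iff hε]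
  rintro ⟨⟨p, hp⟩, i⟩
  change dist (p (co8 v i - co8 v0 i)) 0 < ε
  rw [Real.dist_eq, sub_zero, abs_of_nonneg (p.nonneg _), ← co8_sub]
  exact ((oa_le p _ i).trans (hv p hp)).trans_lt (half_lt_self hε)

/-- The images of an element under the maps close to the identity. -/
theorem exists_epa_map {S : Set (AbsoluteValue E ℝ)} (hS : S.Finite) {v0 : Oct a b c}
    {P : Oct a b c → Prop} (h : ∀ᶠ v in na S v0, P v) :
    ∃ ε : ℝ, 0 < ε ∧ ∀ g : Oct a b c → Oct a b c,
      (∀ p ∈ S, ∀ x, oa p (g x - x) ≤ ε * oa p x) → P (g v0) := by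
  obtain ⟨ε, hε, h1⟩ := exists_epa hS h
  obtain ⟨C, hC0, hC⟩ : ∃ C : ℝ, 0 < C ∧ ∀ p ∈ S, oa p v0 ≤ C := by
    obtain ⟨C, hC⟩ := (hS.image fun p => oa p v0).bddAbove
    refine ⟨max C 1, lt_max_of_lt_right one_pos, fun p hp => ?_⟩
    exact (hC ⟨p, hp, rfl⟩).trans (le_max_left _ _)
  refine ⟨ε / C, div_pos hε hC0, fun g hg => h1 _ fun p hp => ?_⟩
  refine (hg p hp v0).trans ?_
  rw [div_mul_eq_mul_div, div_le_iff₀ hC0]
  exact mul_le_mul_of_nonneg_left (hC p hp) hε.le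

end nh

end Vale.Agent.P011.D4W
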